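import Vale.Agent.P300LE.Ell
import Vale.Agent.P300LX.Top

/-!
# P300L, block LE: the elliptic curve over a fourfold point of the branch curve
-/

open scoped Topology
open Set Filter Complex

noncomputable section

namespace Vale.Agent.P300LE

open Vale.Agent.P300LX Vale.Agent.P300LX.Dat
open Vale.Agent.P272.K (Cm)

/-- at `p` the branch curve has the four tangents `d j` -/
structure Four (D : Dat) (p : D.S) (d : Fin 4 → Fin 2 → ℝ) (κ : ℂ) : Prop where
  k : D.k p = 2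
  hb : ∀ v, v ≠ 0 → D.hb p (0, v) = κ * ∏ j, dt (d j) v

/-- a continuous curve is analytic if its image under an immersion is analytic -/
theorem an_of_imm {V F : Type} [NormedAddCommGroup V] [NormedSpace ℂ V] [FiniteDimensional ℂ V]
    [NormedAddCommGroup F] [NormedSpace ℂ F] [FiniteDimensional ℂ F] {f : V → F} {γ : ℂ → V}
    {z : ℂ} (hf : AnalyticAt ℂ f (γ z)) (hi : Function.Injective (fderiv ℂ f (γ z)))
    (hγ : ContinuousAt γ z) (h : AnalyticAt ℂ (fun x => f (γ x)) z) : AnalyticAt ℂ γ z := by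
  have : CompleteSpace V := FiniteDimensional.complete ℂ V
  have : CompleteSpace F := FiniteDimensional.complete ℂ F
  obtain ⟨L, hL⟩ := (fderiv ℂ f (γ z)).toLinearMap.exists_leftInverse_of_injective
    (LinearMap.ker_eq_bot.2 hi)
  have a : AnalyticAt ℂ (fun x => L.toContinuousLinearMap (f x)) (γ z) :=
    (L.toContinuousLinearMap.analyticAt _).comp hf
  have b : HasStrictFDerivAt (fun x => L.toContinuousLinearMap (f x))
      (ContinuousLinearEquiv.refl ℂ V : V →L[ℂ] V) (γ z) :=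
    (L.toContinuousLinearMap.hasStrictFDerivAt.comp _ hf.hasStrictFDerivAt).congr_fderiv
      (ContinuousLinearMap.ext fun x => LinearMap.congr_fun hL x)
  have c : AnalyticAt ℂ (b.localInverse _ _ _) (L.toContinuousLinearMap (f (γ z))) :=
    (a.contDiffAt (n := ⊤)).to_localInverse b.hasFDerivAt (by simp) |>.analyticAt
  exact (c.comp (f := fun x => L.toContinuousLinearMap (f (γ x)))
    ((L.toContinuousLinearMap.analyticAt _).comp h)).congr (hγ.eventually b.eventually_left_inverse)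

variable {t : ℝ} {d : Fin 4 → Fin 2 → ℝ} {κ : ℂ} {D : Dat} {p : D.S}

namespace Ell

variable (E : Ell t d κ) (h : Four D p d κ)

include h in
theorem mem_dom (z : ℂ) : ((0, E.v z), E.w z) ∈ D.Dom p :=
  ⟨⟨E.ne z, (bd_zero _ _).symm ▸ D.sub p.2, (E.eq z).trans (h.hb _ (E.ne z)).symm⟩,
    fun _ => bd_zero _ _⟩

/-- the parametrisation of the exceptional curve -/
def Φ : C(ℂ, D.Xh) :=
  ⟨fun z => Dat.pt p ⟨_, E.mem_dom h z⟩, cont_pt.comp (((continuous_const.prodMk
    E.dv.continuous).prodMk E.dw.continuous).subtype_mk _)⟩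

theorem rep (z : ℂ) : Rep p (E.Φ h z) ((0, E.v z), E.w z) := rep_pt ⟨_, E.mem_dom h z⟩

theorem π_Φ (z : ℂ) : π (E.Φ h z) = p := (E.rep h z).π_iff.2 rfl

theorem Φ_eq_iff {z z' : ℂ} :
    E.Φ h z = E.Φ h z' ↔ ∃ g : ℤ × ℤ, z' = z + (g.1 + g.2 * (t * I)) := by
  rw [← sub_mem_Lam, ← E.inj]
  refine pt_eq_iff.trans (exists_congr fun c => ?_)
  simp only [scl, h.k, zero_div, Prod.mk.injEq, true_and, and_iff_right_iff_imp]
  rintro ⟨a, -⟩ rfl
  exact E.ne z' (a.trans (zero_smul _ _))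

theorem per (z : ℂ) (g : ℤ × ℤ) : E.Φ h (z + (g.1 + g.2 * (t * I))) = E.Φ h z :=
  ((E.Φ_eq_iff h).2 ⟨g, rfl⟩).symm

theorem range_Φ : range (E.Φ h) = D.Ex p := by
  refine Subset.antisymm (range_subset_iff.2 (E.π_Φ h)) fun y (hy : π y = p) => ?_
  obtain ⟨⟨⟨s, u⟩, c⟩, q⟩ := ex_rep p y
  obtain rfl : s = 0 := q.π_iff.1 hy
  obtain ⟨z, μ, e1, e2⟩ := E.sur u c q.cx.1 (q.cx.2.2.trans (h.hb _ q.cx.1))
  have m : μ ≠ 0 := fun e => q.cx.1 (by simp [e1, e])
  have r := (E.rep h z).scl m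
  rw [scl, h.k, zero_div, ← e1, ← e2] at r
  exact ⟨z, Rep.eq r q fun _ => E.π_Φ h z⟩

theorem mem_O {z : ℂ} {l : Lf} : E.Φ h z ∈ O p l ↔ l (E.v z) ≠ 0 := pt_mem_O

theorem crd_Φ {z : ℂ} {l : Lf} (hl : l (E.v z) ≠ 0) : crd p l (E.Φ h z) =
    ((0, (l (E.v z))⁻¹ • E.v z), (l (E.v z))⁻¹ ^ 2 * E.w z) := by
  rw [(E.rep h z).crd_eq hl, scl, h.k, zero_div]

/-- the curve is an analytic immersion in the homogeneous coordinates -/
theorem an_crd {z : ℂ} {l : Lf} (hl : l (E.v z) ≠ 0) :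
    AnalyticAt ℂ (fun x => crd p l (E.Φ h x)) z ∧ deriv (fun x => crd p l (E.Φ h x)) z ≠ 0 := by
  have a := E.dv.analyticAt z
  have b := E.dw.analyticAt z
  have c := ((l.analyticAt _).comp a).inv hl
  have e : (fun x => crd p l (E.Φ h x)) =ᶠ[𝓝 z]
      fun x => ((0, (l (E.v x))⁻¹ • E.v x), (l (E.v x))⁻¹ ^ 2 * E.w x) :=
    ((l.continuous.comp E.dv.continuous).continuousAt.eventually_ne hl).mono fun _ => E.crd_Φ h
  refine ⟨((analyticAt_const.prod (c.smul a)).prod ((c.pow 2).mul b)).congr e.symm, fun k => ?_⟩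
  obtain ⟨m, hm⟩ : ∃ m, HasDerivAt (fun x => (l (E.v x))⁻¹) m z :=
    ⟨_, c.differentiableAt.hasDerivAt⟩
  rw [e.deriv_eq, (((hasDerivAt_const z 0).prodMk (hm.fun_smul (E.dv z).hasDerivAt)).prodMk
    ((hm.fun_pow 2).fun_mul (E.dw z).hasDerivAt)).deriv] at k
  simp only [Prod.mk_eq_zero, true_and] at k
  refine E.imm z (-m * l (E.v z)) ?_ ?_
  · rw [mul_comm, mul_smul, neg_smul, ← eq_neg_of_add_eq_zero_left k.1, smul_inv_smul₀ hl]
  · have := k.2
    simp only [Nat.add_one_sub_one, pow_one, Nat.cast_ofNat] at this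
    field_simp at this
    linear_combination this

/-- the curve is an analytic immersion in every chart `e` in which the homogeneous coordinates are
an immersion -/
theorem hol {z : ℂ} {l : Lf} (hl : l (E.v z) ≠ 0) {e : D.Xh → Cm 2} {e' : Cm 2 → D.Xh}
    (ce : ContinuousAt e (E.Φ h z)) (li : ∀ᶠ y in 𝓝 (E.Φ h z), e' (e y) = y)
    (an : AnalyticAt ℂ (fun x => crd p l (e' x)) (e (E.Φ h z)))
    (im : Function.Injective (fderiv ℂ (fun x => crd p l (e' x)) (e (E.Φ h z)))) :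
    AnalyticAt ℂ (fun x => e (E.Φ h x)) z ∧ deriv (fun x => e (E.Φ h x)) z ≠ 0 := by
  have c := (E.Φ h).continuous.continuousAt (x := z)
  have q : (fun x => crd p l (e' (e (E.Φ h x)))) =ᶠ[𝓝 z] fun x => crd p l (E.Φ h x) :=
    (c.eventually li).mono fun x a => by simp only [a]
  have a := an_of_imm (γ := fun x => e (E.Φ h x)) an im (ce.comp c) ((E.an_crd h hl).1.congr q.symm)
  refine ⟨a, fun k => (E.an_crd h hl).2 ?_⟩
  rw [← q.deriv_eq]
  exact (an.differentiableAt.hasFDerivAt.comp_hasDerivAt z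
    a.differentiableAt.hasDerivAt).deriv.trans (by rw [k, map_zero])

end Ell

end Vale.Agent.P300LE
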