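import Vale.Agent.P300LE.Phi
import Vale.Agent.P300LX.Quo
import Vale.Agent.P300LZ.Surf

/-!
# P300L, block LE: the elliptic curve in the compact surface
-/

open scoped Topology
open Set Filter Complex

noncomputable section

namespace Vale.Agent.P300LE.Ell

open Vale.Agent.P300LX Vale.Agent.P300LX.Dat
open Vale.Agent.P272.K (Cm Chart At)
open Vale.Agent.P300LZ (lat)

variable {t : ℝ} {d : Fin 4 → Fin 2 → ℝ} {κ : ℂ} {D : Dat} {p : D.S} (E : Ell t d κ)
  (h : Four D p d κ) {G : Type} [Group G] (B : Act D G)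

theorem lim (z : ℂ) : Lim (E.Φ h) z := by
  obtain ⟨a, ha⟩ := ex_lf (E.ne z)
  have k := E.an_crd h ha
  refine lim_on (E.Φ h).continuous.continuousAt ((E.mem_O h).2 ha)
    ⟨k.1, (injective_iff_map_eq_zero _).2 fun x e => ?_⟩
  rw [fderiv_eq_smul_deriv] at e
  exact (smul_eq_zero.1 e).resolve_right k.2

theorem q_cont : Continuous fun z => B.q (E.Φ h z) := B.q_cont.comp (E.Φ h).continuous

theorem q_hol (z : ℂ) (e : Chart 2 B.X.X) (he : At e (B.q (E.Φ h z))) :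
    AnalyticAt ℂ (fun w => e (B.q (E.Φ h w))) z ∧ deriv (fun w => e (B.q (E.Φ h w))) z ≠ 0 :=
  have k := B.im_q (E.lim h z) he
  ⟨k.1, fun a => one_ne_zero (k.2 (a.trans (map_zero _).symm))⟩

theorem q_inj (z z' : ℂ) :
    B.q (E.Φ h z) = B.q (E.Φ h z') ↔ ∃ g, z' = z + lat (t * I) g := by
  refine Iff.trans ⟨fun a => ?_, congrArg _⟩ (E.Φ_eq_iff h)
  obtain ⟨g, a⟩ := B.q_eq_iff.1 a
  have b := congrArg π a
  rw [B.π_sm, E.π_Φ, E.π_Φ] at b
  rwa [B.free g _ (D.sub p.2) b, B.sm_one] at a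

theorem per' (z : ℂ) (g : ℤ × ℤ) : E.Φ h (z + lat (t * I) g) = E.Φ h z := E.per h z g

theorem range_q : (range fun z => B.q (E.Φ h z)) = B.q '' D.Ex p := by
  rw [← E.range_Φ h, ← range_comp]
  rfl

end Vale.Agent.P300LE.Ell
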