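import Vale.Agent.P300LE.Wp

/-!
# P300L, block LE: uniformisation of the curve `w² = κ ∏ det (d j, v)` in `ℙ(1, 1, 2)`
-/

open scoped Real Topology
open Set Filter Metric Complex

noncomputable section

namespace Vale.Agent.P300LE

open Vale.Agent.P027H

/-- a real vector as a complex vector -/
def cx (a : Fin 2 → ℝ) : Fin 2 → ℂ := fun i => a i

/-- the linear form which vanishes on the direction `a` -/
def dt (a : Fin 2 → ℝ) (v : Fin 2 → ℂ) : ℂ := a 0 * v 1 - a 1 * v 0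

/-- the determinant -/
def dr (a b : Fin 2 → ℝ) : ℝ := a 0 * b 1 - a 1 * b 0

/-- along `γ`, for `s` from `0` to `1`, the pair `v`, `w` runs on one sheet over the real arc from
`a` to `b`; for `s` from `1` to `2` it runs back on the other sheet -/
structure Arc (v : ℂ → Fin 2 → ℂ) (w : ℂ → ℂ) (γ : ℝ → ℂ) (a b : Fin 2 → ℝ) where
  μ : ℝ → ℂ
  x : ℝ → ℝ
  ω : ℝ → ℂ
  A : ℝ
  B : ℝ
  cμ : Continuous μ
  cx' : Continuous x
  cω : Continuous ω
  μ0 : ∀ s, μ s ≠ 0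
  A0 : 0 < A
  B0 : 0 < B
  mono : StrictMonoOn x (Icc 0 1)
  x0 : x 0 = 0
  x1 : x 1 = 1
  xs : ∀ s, x (2 - s) = x s
  ωs : ∀ s, ω (2 - s) = -ω s
  ω0 : ∀ s ∈ Ioo (0 : ℝ) 1, ω s ≠ 0
  hv : ∀ s, v (γ s) = μ s • cx (((1 - x s) * A) • a + (x s * B) • b)
  hw : ∀ s, w (γ s) = μ s ^ 2 * ω s

/-- the uniformisation of the double cover of the projective line branched at the four real
directions `d j` by `ℂ` modulo `ℤ + ℤ t i` -/
structure Ell (t : ℝ) (d : Fin 4 → Fin 2 → ℝ) (κ : ℂ) where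
  v : ℂ → Fin 2 → ℂ
  w : ℂ → ℂ
  dv : Differentiable ℂ v
  dw : Differentiable ℂ w
  ne : ∀ z, v z ≠ 0
  eq : ∀ z, w z ^ 2 = κ * ∏ j, dt (d j) (v z)
  inj : ∀ z z', (∃ μ : ℂ, v z' = μ • v z ∧ w z' = μ ^ 2 * w z) ↔ z' - z ∈ Lam t
  sur : ∀ (u : Fin 2 → ℂ) (c : ℂ), u ≠ 0 → c ^ 2 = κ * ∏ j, dt (d j) u →
    ∃ z μ, u = μ • v z ∧ c = μ ^ 2 * w z
  imm : ∀ z (c : ℂ), deriv v z = c • v z → deriv w z ≠ 2 * c * w z
  arcA : Arc v w (fun s => pt t (s / 2) (1 / 2)) (d 0) (d 1)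
  arcB : Arc v w (fun s => pt t (1 / 2) (1 / 2 + s / 2)) (d 1) (d 2)

variable {t : ℝ}

theorem dt_cx (a P Q : Fin 2 → ℝ) (x y : ℂ) :
    dt a (x • cx P + y • cx Q) = x * dr a P + y * dr a Q := by
  simp only [dt, dr, cx, Pi.add_apply, Pi.smul_apply, smul_eq_mul]
  push_cast
  ring

theorem sub_mem_Lam {z z' : ℂ} :
    z' - z ∈ Lam t ↔ ∃ g : ℤ × ℤ, z' = z + (g.1 + g.2 * (t * I)) := by
  simp only [mem_Lam, sub_eq_iff_eq_add', Prod.exists]

theorem e_real (ht : 0 < t) : ∃ a b c : ℝ, e1 t = a ∧ e2 t = b ∧ e3 t = c := by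
  have k : ∀ x y : ℝ, (∃ n : ℤ, -y - y = n) → ∃ a : ℝ, wp (Lam t) (pt t x y) = a := fun x y h =>
    ⟨_, (conj_eq_iff_re.1 (by
      rw [← wp_conj, pt_conj]
      exact (isLat ht).wp_congr (by rw [pt_sub, pt_mem ht]; exact ⟨⟨0, by simp⟩, h⟩))).symm⟩
  obtain ⟨a, ha⟩ := k (1 / 2) 0 ⟨0, by simp⟩
  obtain ⟨b, hb⟩ := k (1 / 2) (1 / 2) ⟨-1, by norm_num⟩
  obtain ⟨c, hc⟩ := k 0 (1 / 2) ⟨-1, by norm_num⟩
  exact ⟨a, b, c, ha, hb, hc⟩

theorem imm_st (ht : 0 < t) {X Y W : ℂ → ℂ} (dX : Differentiable ℂ X) (dY : Differentiable ℂ Y)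
    (dW : Differentiable ℂ W) (mem : ∀ z ∈ Lam t, X z ≠ 0 ∧ Y z = 0 ∧ W z = 0)
    (off : ∀ z ∉ Lam t, Y z ≠ 0 ∧ X z = Y z * wp (Lam t) z ∧ W z = Y z ^ 2 * dwp (Lam t) z)
    {z c : ℂ} (hX : deriv X z = c * X z) (hY : deriv Y z = c * Y z) :
    deriv W z ≠ 2 * c * W z := fun hW => by
  have l := isLat ht
  by_cases h : z ∈ Lam t
  · obtain ⟨g, k, g1, k1, g0, gk⟩ := near_zero l
    have tz : Tendsto (fun x : ℂ => x - z) (𝓝 z) (𝓝 0) := by
      simpa using (continuous_sub_right z).tendsto z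
    have sh : ∀ {f : ℂ → ℂ}, AnalyticAt ℂ f 0 → HasDerivAt (fun x => f (x - z)) (deriv f 0) z :=
      fun {f} a => HasDerivAt.comp_sub_const z z (by simpa using a.differentiableAt.hasDerivAt)
    have k0 : k 0 ≠ 0 := fun e => by
      have a : ∀ᶠ x in 𝓝[≠] (0 : ℂ),
          k x ^ 2 = 4 * g x ^ 3 - g2 (Lam t) * x ^ 4 * g x - g3 (Lam t) * x ^ 6 :=
        l.notMem_zero.mono fun x a => by
          rw [← (gk x a).1, ← (gk x a).2, mul_pow, l.ode a]
          ring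
      have c1 := g1.continuousAt
      have c2 := k1.continuousAt
      have b1 : ContinuousAt (fun x => k x ^ 2) 0 := by fun_prop
      have b2 : ContinuousAt (fun x =>
        4 * g x ^ 3 - g2 (Lam t) * x ^ 4 * g x - g3 (Lam t) * x ^ 6) 0 := by fun_prop
      have := tendsto_nhds_unique_of_eventuallyEq (b1.tendsto.mono_left nhdsWithin_le_nhds)
        (b2.tendsto.mono_left nhdsWithin_le_nhds) a
      simp [e, g0] at this
    have e : (fun x => W x * g (x - z) ^ 2) =ᶠ[𝓝 z] fun x => (x - z) * (X x ^ 2 * k (x - z)) := by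
      filter_upwards [tz.eventually (eventually_nhdsWithin_iff.1 l.notMem_zero)] with x a
      by_cases b : x = z
      · simp [b, (mem z h).2.2]
      · have a := a (sub_ne_zero.2 b)
        have o := off x fun c => a (sub_mem c h)
        rw [← (gk _ a).1, ← (gk _ a).2, o.2.1, o.2.2,
          l.wp_congr (z := x - z) (w := x) (by simpa using h),
          l.dwp_congr (z := x - z) (w := x) (by simpa using h)]
        ring
    have := e.deriv_eq
    rw [((dW z).hasDerivAt.fun_mul ((sh g1).fun_pow 2)).deriv,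
      (((hasDerivAt_id' z).sub_const z).fun_mul
        (((dX z).hasDerivAt.fun_pow 2).fun_mul (sh k1))).deriv, hW, (mem z h).2.2] at this
    simp [(mem z h).1, k0] at this
  · have o := off z h
    have n := l.notMem_nhds h
    have e1 : X =ᶠ[𝓝 z] fun x => Y x * wp (Lam t) x := n.mono fun x a => (off x a).2.1
    have e2 : W =ᶠ[𝓝 z] fun x => Y x ^ 2 * dwp (Lam t) x := n.mono fun x a => (off x a).2.2
    rw [e1.deriv_eq, ((dY z).hasDerivAt.fun_mul (l.hasDerivAt_wp h)).deriv, hY, o.2.1] at hX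
    rw [e2.deriv_eq, (((dY z).hasDerivAt.fun_pow 2).fun_mul (l.hasDerivAt_dwp h)).deriv, hY,
      o.2.2] at hW
    have a : dwp (Lam t) z = 0 := (mul_eq_zero.1 (by linear_combination hX)).resolve_left o.1
    refine l.simple h a ((mul_eq_zero.1 ?_).resolve_left (pow_ne_zero 2 o.1))
    rw [a] at hW
    linear_combination 2 * hW

theorem ex_arc (ht : 0 < t) {X Y W : ℂ → ℂ} (dY : Differentiable ℂ Y)
    (off : ∀ z ∉ Lam t, Y z ≠ 0 ∧ X z = Y z * wp (Lam t) z ∧ W z = Y z ^ 2 * dwp (Lam t) z)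
    {P Q a b : Fin 2 → ℝ} {A B ea eb : ℝ} (A0 : 0 < A) (B0 : 0 < B) (ha : A • a = ea • P + Q)
    (hb : B • b = eb • P + Q) {c : ℂ} (c0 : c ≠ 0) {γ : ℝ → ℂ} (hc : Continuous γ)
    (h0 : ∀ s, γ s ∉ Lam t) (hs : ∀ s, γ (2 - s) + γ s ∈ Lam t)
    (h2 : ∀ s ∈ Ioo (0 : ℝ) 1, 2 * γ s ∉ Lam t)
    (h : ∃ x : ℝ → ℝ, Continuous x ∧ StrictMonoOn x (Icc 0 1) ∧ x 0 = 0 ∧ x 1 = 1 ∧
      (∀ s, x (2 - s) = x s) ∧ ∀ s, wp (Lam t) (γ s) = (1 - x s) * ea + x s * eb) :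
    Nonempty (Arc (fun z => X z • cx P + Y z • cx Q) (fun z => c * W z) γ a b) := by
  obtain ⟨x, x1, x2, x3, x4, x5, x6⟩ := h
  have l := isLat ht
  refine ⟨⟨fun s => Y (γ s), x, fun s => c * dwp (Lam t) (γ s), A, B, dY.continuous.comp hc, x1,
    continuous_const.mul (continuous_iff_continuousAt.2 fun s => ContinuousAt.comp (f := γ)
      (l.analyticAt_dwp (h0 s)).continuousAt hc.continuousAt), fun s => (off _ (h0 s)).1, A0, B0,
    x2, x3, x4, x5, fun s => by rw [l.dwp_congr' (hs s), mul_neg],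
    fun s a => mul_ne_zero c0 fun e => h2 s a ((l.dwp_eq_zero (h0 s)).1 e), fun s => ?_,
    fun s => by rw [(off _ (h0 s)).2.2, mul_left_comm]⟩⟩
  rw [(off _ (h0 s)).2.1, x6, mul_smul _ A, mul_smul _ B, ha, hb]
  funext i
  simp only [cx, Pi.add_apply, Pi.smul_apply, smul_eq_mul]
  push_cast
  ring

/-- **existence of the uniformisation** -/
theorem ex_ell (ht : 0 < t) {lam : ℝ} (hl : e2 t - e3 t = lam * (e1 t - e3 t))
    {d : Fin 4 → Fin 2 → ℝ} {κ : ℂ} (hκ : κ ≠ 0) (h0 : 0 < dr (d 0) (d 3))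
    (h1 : 0 < dr (d 1) (d 3)) (h2 : 0 < dr (d 2) (d 3)) (h02 : dr (d 0) (d 2) ≠ 0)
    (cr : dr (d 0) (d 1) * dr (d 2) (d 3) = lam * (dr (d 0) (d 2) * dr (d 1) (d 3))) :
    Nonempty (Ell t d κ) := by
  have l := isLat ht
  obtain ⟨X, Y, W, dX, dY, dW, mem, off⟩ := ex_st ht
  obtain ⟨a1, a2, a3, b1, b2, b3⟩ := e_real ht
  have n13 : a1 - a3 ≠ 0 := fun e => e13 ht (by rw [b1, b3, sub_eq_zero.1 e])
  have hl' : a2 - a3 = lam * (a1 - a3) := by
    rw [b1, b2, b3] at hl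
    exact_mod_cast hl
  obtain ⟨p, hp⟩ : ∃ p, p = dr (d 0) (d 2) / (dr (d 0) (d 3) * dr (d 2) (d 3) * (a1 - a3)) :=
    ⟨_, rfl⟩
  have p0 : p ≠ 0 := hp ▸ div_ne_zero h02 (mul_ne_zero (mul_ne_zero h0.ne' h2.ne') n13)
  have p1 : p * (dr (d 0) (d 3) * dr (d 2) (d 3) * (a1 - a3)) = dr (d 0) (d 2) :=
    hp ▸ div_mul_cancel₀ _ (mul_ne_zero (mul_ne_zero h0.ne' h2.ne') n13)
  have p2 : p * (dr (d 0) (d 3) * dr (d 1) (d 3) * (a2 - a3)) = dr (d 0) (d 1) :=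
    mul_right_cancel₀ h2.ne' (by rw [cr, hl', ← p1]; ring)
  obtain ⟨P, hP⟩ : ∃ P, P = p • d 3 := ⟨_, rfl⟩
  obtain ⟨Q, hQ⟩ : ∃ Q, Q = (dr (d 0) (d 3))⁻¹ • d 0 - a3 • P := ⟨_, rfl⟩
  have q0 : (dr (d 0) (d 3))⁻¹ • d 0 = a3 • P + Q := by rw [hQ, add_sub_cancel]
  have qq : ∀ {b : Fin 2 → ℝ} {e : ℝ}, 0 < dr b (d 3) →
      p * (dr (d 0) (d 3) * dr b (d 3) * (e - a3)) = dr (d 0) b →
      (dr b (d 3))⁻¹ • b = e • P + Q := fun {b e} k1 k2 => by
    have k3 : ∀ i, dr (d 0) (d 3) * b i = dr (d 0) b * d 3 i + dr b (d 3) * d 0 i := by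
      simp only [Fin.forall_fin_two, dr]
      constructor <;> ring
    funext i
    simp only [hQ, hP, Pi.add_apply, Pi.sub_apply, Pi.smul_apply, smul_eq_mul]
    field_simp
    linear_combination k3 i - d 3 i * k2
  have q1 := qq h1 p2
  have q2 := qq h2 p1
  have rr : ∀ {b : Fin 2 → ℝ} {e : ℝ}, 0 < dr b (d 3) → (dr b (d 3))⁻¹ • b = e • P + Q →
      ∀ x y : ℂ, dt b (x • cx P + y • cx Q) = (x - e * y) * (p * dr b (d 3) : ℝ) :=
    fun {b e} k1 k2 x y => by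
      have k3 : dr b P = p * dr b (d 3) := by simp only [hP, dr, Pi.smul_apply, smul_eq_mul]; ring
      have k4 : dr b Q = -e * dr b P := by
        rw [← sub_eq_iff_eq_add'.2 k2]
        simp only [dr, Pi.sub_apply, Pi.smul_apply, smul_eq_mul]
        ring
      rw [dt_cx, k4, k3]
      push_cast
      ring
  have r3 : ∀ x y : ℂ, dt (d 3) (x • cx P + y • cx Q) = -y := fun x y => by
    have k3 : dr (d 3) P = 0 := by simp only [hP, dr, Pi.smul_apply, smul_eq_mul]; ring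
    have k4 : dr (d 3) Q = -((dr (d 0) (d 3))⁻¹ * dr (d 0) (d 3)) - a3 * dr (d 3) P := by
      rw [hQ]
      generalize (dr (d 0) (d 3))⁻¹ = u
      simp only [dr, Pi.sub_apply, Pi.smul_apply, smul_eq_mul]
      ring
    rw [dt_cx, k4, k3, inv_mul_cancel₀ h0.ne']
    simp
  have g0 : ∀ {b : Fin 2 → ℝ}, 0 < dr b (d 3) → ((p * dr b (d 3) : ℝ) : ℂ) ≠ 0 := fun k =>
    ofReal_ne_zero.2 (mul_ne_zero p0 k.ne')
  obtain ⟨c, hc⟩ := IsAlgClosed.exists_pow_nat_eq (-κ * ((p * dr (d 0) (d 3) : ℝ) *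
    (p * dr (d 1) (d 3) : ℝ) * (p * dr (d 2) (d 3) : ℝ)) / 4) two_pos
  have c0 : c ≠ 0 := fun e => div_ne_zero (mul_ne_zero (neg_ne_zero.2 hκ) (mul_ne_zero
    (mul_ne_zero (g0 h0) (g0 h1)) (g0 h2))) (by norm_num) (hc.symm.trans (by simp [e]))
  have key : ∀ x y : ℂ, κ * ∏ j, dt (d j) (x • cx P + y • cx Q) =
      c ^ 2 * (4 * (y * ((x - a1 * y) * (x - a2 * y) * (x - a3 * y)))) := fun x y => by
    rw [Fin.prod_univ_four, rr h0 q0, rr h1 q1, rr h2 q2, r3, hc]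
    ring
  have ind : ∀ {x y x' y' : ℂ}, x • cx P + y • cx Q = x' • cx P + y' • cx Q → x = x' ∧ y = y' :=
    fun {x y x' y'} e => by
      have k1 := congrArg (dt (d 3)) e
      have k2 := congrArg (dt (d 0)) e
      rw [r3, r3, neg_inj] at k1
      rw [rr h0 q0, rr h0 q0, k1] at k2
      exact ⟨sub_left_injective (mul_right_cancel₀ (g0 h0) k2), k1⟩
  have sm : ∀ μ x y : ℂ, μ • (x • cx P + y • cx Q) = (μ * x) • cx P + (μ * y) • cx Q :=
    fun μ x y => by rw [smul_add, smul_smul, smul_smul]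
  have cu := (cubic ht).2
  rw [b1, b2, b3] at cu
  obtain ⟨arA⟩ := ex_arc ht dY off (inv_pos.2 h0) (inv_pos.2 h1) q0 q1 c0
    (γ := fun s => pt t (s / 2) (1 / 2)) (by unfold pt; fun_prop)
    (fun s h => not_half ((pt_mem ht).1 h).2)
    (fun s => by rw [pt_add, pt_mem ht]; exact ⟨⟨1, by push_cast; ring⟩, 1, by norm_num⟩)
    (fun s a h => by
      rw [pt_two, pt_mem ht] at h
      exact not_int a.1 a.2 (h.1.imp fun m e => by linarith)) (b2 ▸ b3 ▸ sideA ht)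
  obtain ⟨arB⟩ := ex_arc ht dY off (inv_pos.2 h1) (inv_pos.2 h2) q1 q2 c0
    (γ := fun s => pt t (1 / 2) (1 / 2 + s / 2)) (by unfold pt; fun_prop)
    (fun s h => not_half ((pt_mem ht).1 h).1)
    (fun s => by rw [pt_add, pt_mem ht]; exact ⟨⟨1, by norm_num⟩, 2, by push_cast; ring⟩)
    (fun s a h => by
      rw [pt_two, pt_mem ht] at h
      exact not_int a.1 a.2 (let ⟨m, e⟩ := h.2; ⟨m - 1, by push_cast; linarith⟩))
    (b1 ▸ b2 ▸ sideB ht)
  refine ⟨⟨fun z => X z • cx P + Y z • cx Q, fun z => c * W z,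
    (dX.smul_const _).add (dY.smul_const _), dW.const_mul c, fun z e => ?_, fun z => ?_,
    fun z z' => ⟨fun ⟨μ, e, e'⟩ => ?_, fun e => ?_⟩, fun u k u0 e => ?_, fun z k e e' => ?_,
    arA, arB⟩⟩
  · obtain ⟨k1, k2⟩ := ind (x' := 0) (y' := 0) (e.trans (by simp))
    by_cases h : z ∈ Lam t
    · exact (mem z h).1 k1
    · exact (off z h).1 k2
  · rw [key, mul_pow]
    by_cases h : z ∈ Lam t
    · simp [(mem z h).2]
    · rw [(off z h).2.1, (off z h).2.2, mul_pow, l.ode h, cu]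
      ring
  · obtain ⟨k1, k2⟩ := ind (e.trans (sm _ _ _))
    by_cases h : z ∈ Lam t
    · refine sub_mem (by_contra fun h' => (off z' h').1 ?_) h
      rw [k2, (mem z h).2.1, mul_zero]
    · have h' : z' ∉ Lam t := fun h' => by
        have : μ = 0 := (mul_eq_zero.1 ((mem z' h').2.1 ▸ k2).symm).resolve_right (off z h).1
        exact (mem z' h').1 (by rw [k1, this, zero_mul])
      refine l.sub_mem_of_eq h' h (mul_left_cancel₀ (off z' h').1 ?_)
        (mul_left_cancel₀ (mul_ne_zero c0 (pow_ne_zero 2 (off z' h').1)) ?_)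
      · rw [← (off z' h').2.1, k1, k2, (off z h).2.1, mul_assoc]
      · rw [mul_assoc, ← (off z' h').2.2, e', k2, (off z h).2.2]
        ring
  · by_cases h : z ∈ Lam t
    · have h' : z' ∈ Lam t := by simpa using add_mem e h
      exact ⟨X z' / X z, by rw [sm, div_mul_cancel₀ _ (mem z h).1, (mem z h).2.1, (mem z' h').2.1,
        mul_zero], by simp [(mem z h).2.2, (mem z' h').2.2]⟩
    · have h' : z' ∉ Lam t := fun h' => h (by simpa using sub_mem h' e)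
      have := (off z h).1
      refine ⟨Y z' / Y z, ?_, ?_⟩
      · rw [sm, div_mul_cancel₀ _ this, (off z h).2.1, (off z' h').2.1, l.wp_congr e, ← mul_assoc,
          div_mul_cancel₀ _ this]
      · rw [(off z h).2.2, (off z' h').2.2, l.dwp_congr e]
        field_simp
  · obtain ⟨x, y, rfl⟩ : ∃ x y : ℂ, u = x • cx P + y • cx Q := by
      have k0 : ((dr (d 0) (d 3) : ℝ) : ℂ) ≠ 0 := ofReal_ne_zero.2 h0.ne'
      have k1 : (p : ℂ) ≠ 0 := ofReal_ne_zero.2 p0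
      refine ⟨dt (d 0) u / (p * dr (d 0) (d 3)) - a3 * dt (d 3) u, -dt (d 3) u, funext fun i => ?_⟩
      have k3 : ∀ i, (dr (d 0) (d 3) : ℝ) * u i = dt (d 0) u * d 3 i - dt (d 3) u * d 0 i := by
        simp only [Fin.forall_fin_two, dr, dt]
        push_cast
        constructor <;> ring
      simp only [hQ, hP, cx, Pi.add_apply, Pi.sub_apply, Pi.smul_apply, smul_eq_mul]
      push_cast
      field_simp
      linear_combination k3 i
    rw [key] at e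
    by_cases y0 : y = 0
    · have z0 := mem 0 (zero_mem _)
      refine ⟨0, x / X 0, by rw [sm, div_mul_cancel₀ _ z0.1, z0.2.1, mul_zero, y0], ?_⟩
      simpa [z0.2.2, y0] using e
    · obtain ⟨z, h, k1, k2⟩ := l.surj (x := x / y) (y := k / (c * y ^ 2)) (by
        rw [cu, div_pow, e]
        field_simp)
      have := (off z h).1
      refine ⟨z, y / Y z, ?_, ?_⟩
      · rw [sm, div_mul_cancel₀ _ this, (off z h).2.1, k1, ← mul_assoc, div_mul_cancel₀ _ this,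
          mul_div_cancel₀ _ y0]
      · rw [(off z h).2.2, k2]
        field_simp
  · rw [(((dX z).hasDerivAt.smul_const _).fun_add ((dY z).hasDerivAt.smul_const _)).deriv, sm] at e
    rw [deriv_const_mul_field] at e'
    exact imm_st ht dX dY dW mem off (ind e).1 (ind e).2
      (mul_left_cancel₀ c0 (e'.trans (mul_left_comm _ _ _)))

/-- the harmonic cross ratio -/
theorem ell_one {d : Fin 4 → Fin 2 → ℝ} {κ : ℂ} (hκ : κ ≠ 0) (h0 : 0 < dr (d 0) (d 3))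
    (h1 : 0 < dr (d 1) (d 3)) (h2 : 0 < dr (d 2) (d 3)) (h02 : dr (d 0) (d 2) ≠ 0)
    (cr : dr (d 0) (d 1) * dr (d 2) (d 3) = 1 / 2 * (dr (d 0) (d 2) * dr (d 1) (d 3))) :
    Nonempty (Ell 1 d κ) := ex_ell one_pos lam_one hκ h0 h1 h2 h02 cr

/-- complex multiplication by `√-2` -/
theorem ell_two {d : Fin 4 → Fin 2 → ℝ} {κ : ℂ} (hκ : κ ≠ 0) (h0 : 0 < dr (d 0) (d 3))
    (h1 : 0 < dr (d 1) (d 3)) (h2 : 0 < dr (d 2) (d 3)) (h02 : dr (d 0) (d 2) ≠ 0)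
    (cr : dr (d 0) (d 1) * dr (d 2) (d 3) = (3 - 2 * √2) * (dr (d 0) (d 2) * dr (d 1) (d 3))) :
    Nonempty (Ell √2 d κ) := ex_ell (by positivity) lam_two hκ h0 h1 h2 h02 cr

end Vale.Agent.P300LE
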