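import Vale.Agent.P300L.Jo
import Mathlib.Analysis.Complex.CoveringMap
import Mathlib.Topology.Homotopy.Lifting

/-!
# P300L, block END: which loops of the product of the elliptic curves die
-/

open scoped Topology unitInterval
open Set Filter Complex
open Vale.Agent.P272.K (Cm Chart At)
open Vale.Agent.P281Z Vale.Agent.P300L
open Vale.Agent.P280Z.Gp (Lifts)
open Vale.Agent.P300LZ (Surf Same lat)
open Vale.Agent.P300LN (Lt vec Null)

noncomputable section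

namespace Vale.Agent.P300LE

/-- the lift of a square with three constant sides -/
theorem sq_lift {E X : Type} [TopologicalSpace E] [TopologicalSpace X] {p : E → X}
    (cov : IsCoveringMap p) (D : C(I × I, X)) (γ : C(I, E)) (h0 : ∀ t, D (0, t) = p (γ t))
    (h : ∀ s, D (1, s) = p (γ 0) ∧ D (s, 0) = p (γ 0) ∧ D (s, 1) = p (γ 0)) :
    ∃ H : C(I × I, E), (∀ x, p (H x) = D x) ∧ (∀ t, H (0, t) = γ t) ∧ γ 1 = γ 0 ∧
      ∀ s, H (1, s) = γ 0 ∧ H (s, 0) = γ 0 ∧ H (s, 1) = γ 0 := by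
  obtain ⟨H, h1, h2⟩ : ∃ H : C(I × I, E), (∀ x, p (H x) = D x) ∧ ∀ t, H (0, t) = γ t :=
    ⟨_, congrFun (cov.liftHomotopy_lifts D γ h0), cov.liftHomotopy_zero D γ h0⟩
  have a : ∀ s, H (s, 0) = γ 0 := fun s => (cov.const_of_comp (g := fun s => H (s, 0))
    (by fun_prop) (fun a b => by rw [h1, h1, (h a).2.1, (h b).2.1]) s 0).trans (h2 0)
  have b : ∀ s, H (1, s) = γ 0 := fun s => (cov.const_of_comp (g := fun s => H (1, s))
    (by fun_prop) (fun a b => by rw [h1, h1, (h a).1, (h b).1]) s 0).trans (a 1)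
  have c : ∀ s s', H (s, 1) = H (s', 1) := cov.const_of_comp (g := fun s => H (s, 1))
    (by fun_prop) fun a b => by rw [h1, h1, (h a).2.2, (h b).2.2]
  exact ⟨H, h1, h2, (h2 1).symm.trans ((c 0 1).trans (b 1)), fun s =>
    ⟨b s, a s, (c s 1).trans (b 1)⟩⟩

theorem kr_smul {N M : ℕ} (a b : ℂ) (v : Cm N) (w : Cm M) :
    kr (a • v) (b • w) = (a * b) • kr v w := by
  funext i
  simp only [kr, Pi.smul_apply, smul_eq_mul]
  ring

theorem same_kr {N₁ N₂ M₁ M₂ M : ℕ} {s s' : Cm N₁} {t t' : Cm N₂} {u u' : Cm M₁} {w w' : Cm M₂}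
    {l l' n n' : Cm M} {F F' G G' a a' b b' : ℂ} (h : Same s s' (F • t) (F' • t'))
    (h' : Same u u' (G • w) (G' • w')) (hl : a • l = a' • l') (hn : b • n = b' • n') (ha : a ≠ 0)
    (ha' : a' ≠ 0) (E : ℂ) : Same (kr (kr s u) l) (kr (kr s' u') l')
      ((E * (F * G * (b / a))) • kr (kr t w) n) ((E * (F' * G' * (b' / a'))) • kr (kr t' w') n') := by
  obtain ⟨e, rfl, e2⟩ := h
  obtain ⟨f, rfl, f2⟩ := h'
  refine ⟨e * f * (a⁻¹ * a'), by rw [← kr_smul, ← kr_smul, mul_smul, ← hl, inv_smul_smul₀ ha], ?_⟩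
  rw [show E * (F * G * (b / a)) = E / a * (F * G * b) by ring, mul_smul, ← kr_smul, ← kr_smul, e2,
    f2, hn]
  simp only [smul_smul, kr_smul]
  exact congrArg (· • _) (by field_simp)

theorem cont_coef {T : Type} [TopologicalSpace T] {N : ℕ} {a b : T → Cm N} {c : T → ℂ} {s : Set T}
    (ha : ContinuousOn a s) (hb : ContinuousOn b s) (h0 : ∀ x ∈ s, b x ≠ 0)
    (h : ∀ x ∈ s, a x = c x • b x) : ContinuousOn c s := fun x hx => by
  obtain ⟨i, hi⟩ := Function.ne_iff.1 (h0 x hx)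
  have k := (continuous_apply i).continuousAt.comp_continuousWithinAt (hb x hx)
  have e : ∀ y ∈ s, b y i ≠ 0 → c y = a y i / b y i := fun y hy k => by
    rw [h y hy, Pi.smul_apply, smul_eq_mul, mul_div_cancel_right₀ _ k]
  refine (((continuous_apply i).continuousAt.comp_continuousWithinAt (ha x hx)).div k
    hi).congr_of_eventuallyEq ?_ (e x hx hi)
  filter_upwards [self_mem_nhdsWithin, k.eventually_ne hi] with y using e y

theorem lifts_cont {n N : ℕ} {X κ : Type} [TopologicalSpace X] [ChartedSpace (Cm n) X]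
    {O : κ → Set X} {t : κ → X → Cm N} (L : Lifts n O t) {b : κ} {x : X} (hx : x ∈ O b) :
    ContinuousAt (t b) x := by
  have h := mem_chart_source (Cm n) x
  exact ((L.hol b x hx _ ⟨chart_mem_atlas _ x, h⟩).continuousAt.comp
    ((chartAt (Cm n) x).continuousAt h)).congr
    (((chartAt (Cm n) x).eventually_left_inverse h).mono fun y e => congrArg (t b) e)

/-- two sections of the open join differ by a function without zeros -/
theorem sec_quot {n m : ℕ} {J : Jo n m} (pre : J.Pre) {T : Type} [TopologicalSpace T]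
    {H : T → J.S.X} (hH : Continuous H) {τ τ' : J.κ → T → ℂ} (h : J.Sec H τ) (h' : J.Sec H τ') :
    ∃ ρ : C(T, {z : ℂ // z ≠ 0}), ∀ b x, H x ∈ J.O b → τ b x = ρ x * τ' b x := by
  choose k hk using fun x => pre.lo₁.cov (H x)
  have e : ∀ b x, H x ∈ J.O b → τ (k x) x / τ' (k x) x = τ b x / τ' b x := fun b x a => by
    obtain ⟨e, e1, e2⟩ := h.chg b (k x) x a (hk x)
    obtain ⟨f, f1, f2⟩ := h'.chg b (k x) x a (hk x)
    obtain rfl : e = f := smul_left_injective ℂ (pre.lo₁.nz _ _ (hk x)) (e1.symm.trans f1)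
    rw [div_eq_div_iff (h'.ne _ x (hk x)) (h'.ne b x a)]
    refine smul_left_injective ℂ (pre.lo₂.nz _ _ a) ?_
    simp only [mul_smul]
    rw [f2, smul_comm (τ b x), e2]
    simp only [smul_smul]
    ring_nf
  refine ⟨⟨fun x => ⟨τ (k x) x / τ' (k x) x, div_ne_zero (h.ne _ x (hk x)) (h'.ne _ x (hk x))⟩,
    Continuous.subtype_mk (continuous_iff_continuousAt.2 fun x => ?_) _⟩, fun b x a => ?_⟩
  · have o := ((pre.lo₁.opn (k x)).preimage hH).mem_nhds (hk x)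
    exact (((h.cont _).continuousAt o).div ((h'.cont _).continuousAt o)
      (h'.ne _ x (hk x))).congr (Eventually.mono o fun y a => (e _ y a).symm)
  · exact ((congrArg (· * _) (e b x a)).trans (div_mul_cancel₀ _ (h'.ne b x a))).symm

/-- a trivialisation over a subset of the covering -/
structure Tv {τ : ℂ} (P : Surf τ) (K : Set P.Xh) where
  F : P.κ → P.Xh → ℂ
  l : C(ℂ, ℂ)
  cont : ∀ b, ContinuousOn (F b) (K ∩ P.q ⁻¹' P.O b)
  ne : ∀ b, ∀ x ∈ K, P.q x ∈ P.O b → F b x ≠ 0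
  chg : ∀ b b', ∀ x ∈ K, P.q x ∈ P.O b → P.q x ∈ P.O b' →
    Same (P.s₁ b (P.q x)) (P.s₁ b' (P.q x)) (F b x • P.s₂ b (P.q x)) (F b' x • P.s₂ b' (P.q x))
  eq : ∀ b z, P.Φ z ∈ P.O b → P.Φh z ∈ K → P.μ b (P.Φ z) = exp (l z) * F b (P.Φh z)
  per : ∀ z g, l (z + lat τ g) = l z + 2 * Real.pi * Complex.I * P.φ g

theorem ex_tv {τ : ℂ} (P : Surf τ) {T : Type} [TopologicalSpace T] [CompactSpace T]
    (H : C(T, P.Xh)) : Nonempty (Tv P (range H)) :=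
  let ⟨F, l, a, b, c, d, e⟩ := P.triv _ (isCompact_range H.continuous)
  ⟨⟨F, l, a, b, c, d, e⟩⟩

theorem ex_cf {β : ℕ} (T : Tor β) : ∃ c : T.κ → Cm β → ℂ,
    (∀ j, ContinuousOn (c j) (T.π ⁻¹' T.O j)) ∧
      ∀ j z, T.π z ∈ T.O j → c j z ≠ 0 ∧ T.L z = c j z • T.l j (T.π z) := by
  choose! c h using T.lift
  exact ⟨c, fun j => cont_coef T.cont.continuousOn
    (fun z a => ((lifts_cont T.lf a).comp T.cov.continuous.continuousAt).continuousWithinAt)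
    (fun z a => T.lf.nz j _ a) fun z a => (h j z a).2, h⟩

variable {τ τ' : ℂ} {P : Surf τ} {Q : Surf τ'} {β m : ℕ} {T : Tor β}
  {p₁ : Cm ((pk P Q).N₁ * T.M) →L[ℂ] Cm m} {p₂ : Cm ((pk P Q).N₂ * T.M) →L[ℂ] Cm m}
  {c : T.κ → Cm β → ℂ}

/-- the section which comes from the coverings -/
theorem sec_ref (hc' : ∀ j, ContinuousOn (c j) (T.π ⁻¹' T.O j))
    (hc : ∀ j z, T.π z ∈ T.O j → c j z ≠ 0 ∧ T.L z = c j z • T.l j (T.π z)) {A : Type}
    [TopologicalSpace A] {H₁ : C(A, P.Xh)} {H₂ : C(A, Q.Xh)} (B B' : C(A, Cm β)) (l : C(A, ℂ))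
    (U : Tv P (range H₁)) (V : Tv Q (range H₂)) {D : A → (jo (pk P Q) T p₁ p₂).S.X}
    (hD : ∀ x, D x = (((P.q (H₁ x), Q.q (H₂ x)), T.π (B x)), T.π (B' x))) :
    (jo (pk P Q) T p₁ p₂).Sec D fun k x => exp (l x) *
      (U.F k.1.1.1 (H₁ x) * V.F k.1.1.2 (H₂ x) * (c k.2 (B' x) / c k.1.2 (B x))) := by
  obtain rfl := funext hD
  refine ⟨fun k => ?_, fun k x ⟨⟨⟨a1, a2⟩, a3⟩, a4⟩ => ?_,
    fun k k' x ⟨⟨⟨a1, a2⟩, a3⟩, a4⟩ ⟨⟨⟨b1, b2⟩, b3⟩, b4⟩ => ?_⟩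
  · exact l.continuous.cexp.continuousOn.mul
      ((((U.cont _).comp H₁.continuous.continuousOn fun x a => ⟨mem_range_self x, a.1.1.1⟩).mul
      ((V.cont _).comp H₂.continuous.continuousOn fun x a => ⟨mem_range_self x, a.1.1.2⟩)).mul
      (((hc' _).comp B'.continuous.continuousOn fun x a => a.2).div
      ((hc' _).comp B.continuous.continuousOn fun x a => a.1.2) fun x a => (hc _ _ a.1.2).1))
  · exact mul_ne_zero (exp_ne_zero _) (mul_ne_zero (mul_ne_zero (U.ne _ _ (mem_range_self x) a1)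
      (V.ne _ _ (mem_range_self x) a2)) (div_ne_zero (hc _ _ a4).1 (hc _ _ a3).1))
  · exact same_kr (U.chg _ _ _ (mem_range_self x) a1 b1) (V.chg _ _ _ (mem_range_self x) a2 b2)
      ((hc _ _ a3).2.symm.trans (hc _ _ b3).2) ((hc _ _ a4).2.symm.trans (hc _ _ b4).2)
      (hc _ _ a3).1 (hc _ _ b3).1 _

theorem on_ref (hc : ∀ j z, T.π z ∈ T.O j → c j z ≠ 0 ∧ T.L z = c j z • T.l j (T.π z))
    (f : Fit (pk P Q) T (T.π 0) p₁ p₂) {K : Set P.Xh} {K' : Set Q.Xh} (U : Tv P K) (V : Tv Q K')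
    {z z' : ℂ} (h : P.Φh z ∈ K) (h' : Q.Φh z' ∈ K') :
    (jo (pk P Q) T p₁ p₂).On (((P.Φ z, Q.Φ z'), T.π 0), T.π 0) fun k => exp (U.l z + V.l z') *
      (U.F k.1.1.1 (P.Φh z) * V.F k.1.1.2 (Q.Φh z') * (c k.2 0 / c k.1.2 0)) := by
  rintro ⟨⟨⟨a, b⟩, j⟩, j'⟩ ⟨⟨⟨a1, a2⟩, a3⟩, a4⟩
  refine (f.mem (a, b) (P.Φ z, Q.Φ z') ⟨⟨z, rfl⟩, z', rfl⟩ ⟨a1, a2⟩ j a3).trans ?_
  have e : ∀ v : Cm (pk P Q).N₂, kr v (T.l j (T.π 0)) = (c j' 0 / c j 0) • kr v (T.l j' (T.π 0)) :=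
    fun v => by
      rw [← one_mul (c j' 0 / c j 0), ← kr_smul, one_smul, div_eq_inv_mul, mul_smul,
        ← (hc j' 0 a4).2, (hc j 0 a3).2, inv_smul_smul₀ (hc j 0 a3).1]
  rw [e, map_smul, smul_smul]
  refine congrArg₂ HSMul.hSMul ?_ rfl
  change P.μ a (P.Φ z) * Q.μ b (Q.Φ z') * _ = _
  rw [U.eq a z a1 h, V.eq b z' a2 h', exp_add]
  ring

theorem lat_smul (τ : ℂ) (n : ℕ) (g : ℤ × ℤ) : lat τ (n • g) = n * lat τ g := by
  simp [lat, mul_add, mul_assoc]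

/-- the segment from `0` to `v` -/
def seg (v : ℂ) : C(I, ℂ) := ⟨fun t => (t : ℝ) • v, by fun_prop⟩

theorem seg_zero (v : ℂ) : seg v 0 = 0 := zero_smul ℝ v

theorem seg_one (v : ℂ) : seg v 1 = v := one_smul ℝ v

/-- the winding number -/
def wd (P : Surf τ) (Q : Surf τ') : Lt →+ ℤ := P.φ.coprod Q.φ

theorem wd_ne1 : ∃ a, wd P Q (a, 0) ≠ 0 := by
  simpa [wd] using DFunLike.ne_iff.1 P.φne

theorem wd_ne2 : ∃ b, wd P Q (0, b) ≠ 0 := by
  simpa [wd] using DFunLike.ne_iff.1 Q.φne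

theorem tv_per {K : Set P.Xh} {K' : Set Q.Xh} (U : Tv P K) (V : Tv Q K') (g : Lt) :
    U.l (lat τ g.1) + V.l (lat τ' g.2) = U.l 0 + V.l 0 ↔ wd P Q g = 0 := by
  have a := U.per 0 g.1
  have b := V.per 0 g.2
  rw [zero_add] at a b
  rw [a, b, add_add_add_comm, add_eq_left, ← mul_add, mul_eq_zero, or_iff_right two_pi_I_ne_zero]
  exact_mod_cast Iff.rfl

theorem null_sq (P : Surf τ) : ∃ N : ℕ, 0 < N ∧ ∀ (M : ℕ) g, ∃ H : C(I × I, P.Xh),
    (∀ t : I, H (0, t) = P.Φh ((t : ℝ) • lat τ ((N * M) • g))) ∧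
      ∀ s, H (1, s) = P.Φh 0 ∧ H (s, 0) = P.Φh 0 ∧ H (s, 1) = P.Φh 0 := by
  obtain ⟨N, h0, h⟩ := P.null
  refine ⟨N, h0, fun M g => ?_⟩
  obtain ⟨H, h⟩ := h (M • g)
  exact ⟨⟨fun x => H (x.2, x.1), by fun_prop⟩, fun t => (h t).1.trans
    (by rw [mul_smul, lat_smul τ N, real_smul]), fun s => ⟨(h s).2.1, (h s).2.2⟩⟩

variable {P : Surf Complex.I} {Q : Surf t₂} {p₁ : Cm ((pk P Q).N₁ * T.M) →L[ℂ] Cm m}
  {p₂ : Cm ((pk P Q).N₂ * T.M) →L[ℂ] Cm m} {d : ℕ} {Y : Mf d}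
  {i : Y.X → (jo (pk P Q) T p₁ p₂).S.X} {Ψ : ℂ × ℂ → Y.X}

/-- **the loops with the winding number zero have finite order** -/
theorem end_per (push : PUSH) (hm : m + 3 ≤ 2 + 2 + β + β) (pre : (jo (pk P Q) T p₁ p₂).Pre)
    (gen : (jo (pk P Q) T p₁ p₂).Gen) (f : Fit (pk P Q) T (T.π 0) p₁ p₂)
    (e : Emb d (2 + 2 + β + β) i (connectedComponentIn (jo (pk P Q) T p₁ p₂).Z
      (((P.Φ 0, Q.Φ 0), T.π 0), T.π 0)))
    (hΨ : ∀ z, i (Ψ z) = (((P.Φ z.1, Q.Φ z.2), T.π 0), T.π 0)) (g : Lt) (h : wd P Q g = 0) :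
    ∃ (N : ℕ) (z : ℂ × ℂ), 0 < N ∧ Null Ψ z (N • vec g) := by
  obtain ⟨N, N0, hN⟩ := null_sq P
  obtain ⟨M, M0, hM⟩ := null_sq Q
  obtain ⟨H₁, a0, a⟩ := hN M g.1
  obtain ⟨H₂, b0, b⟩ := hM N g.2
  rw [mul_comm M] at b0
  obtain ⟨U⟩ := ex_tv P H₁
  obtain ⟨V⟩ := ex_tv Q H₂
  obtain ⟨c, c1, c2⟩ := ex_cf T
  have w := (tv_per U V ((N * M) • g)).2 (by rw [map_nsmul, h, smul_zero])
  let D : C(I × I, (jo (pk P Q) T p₁ p₂).S.X) := ⟨fun x => (((P.q (H₁ x), Q.q (H₂ x)), T.π 0), T.π 0),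
    (((P.cov.continuous.comp H₁.continuous).prodMk (Q.cov.continuous.comp H₂.continuous)).prodMk
      continuous_const).prodMk continuous_const⟩
  let u : C(I, ℂ) :=
    U.l.comp (seg (lat Complex.I ((N * M) • g).1)) + V.l.comp (seg (lat t₂ ((N * M) • g).2))
  have u0 : u 0 = U.l 0 + V.l 0 := by simp [u, seg_zero]
  have u1 : u 1 = U.l 0 + V.l 0 := by simpa [u, seg_one] using w
  let l : C(I × I, ℂ) := ⟨fun x => (1 - (x.1 : ℝ)) * u x.2 + (x.1 : ℝ) * u 0, by fun_prop⟩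
  obtain ⟨D', d1, d2⟩ := push _ m _ hm pre gen D _ (sec_ref c1 c2 0 0 l U V fun _ => rfl)
  have k : ∀ x z, H₁ x = P.Φh z.1 → H₂ x = Q.Φh z.2 → l x = U.l z.1 + V.l z.2 → D' x = i (Ψ z) :=
    fun x z k1 k2 k3 => by
      have k4 : D x = (((P.Φ z.1, Q.Φ z.2), T.π 0), T.π 0) := by
        rw [← P.q_Φh, ← Q.q_Φh, ← k1, ← k2]
        rfl
      rw [hΨ, ← k4]
      refine d2 x ?_
      rw [k4, k1, k2, k3]
      exact on_ref c2 f U V ⟨x, k1⟩ ⟨x, k2⟩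
  have k0 := fun s => k (s, 0) 0 (a s).2.1 (b s).2.1 (by
    simp only [l, ContinuousMap.coe_mk, u0, Prod.fst_zero, Prod.snd_zero]; ring)
  have r : ∀ x, ∃ y, i y = D' x := fun x => e.ex ((isPreconnected_range
    D'.continuous).subset_connectedComponentIn ⟨_, (k0 0).trans (hΨ 0)⟩ (range_subset_iff.2 d1)
    (mem_range_self x))
  choose E hE using r
  refine ⟨N * M, 0, Nat.mul_pos N0 M0, ⟨E, e.cemb.isEmbedding.continuous_iff.2
    (D'.continuous.congr fun x => (hE x).symm)⟩, fun t => e.inj ((hE _).trans ?_), fun s =>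
    ⟨e.inj ((hE _).trans ?_), e.inj ((hE _).trans (k0 s)), e.inj ((hE _).trans ?_)⟩⟩
  · rw [zero_add, ← map_nsmul]
    exact k _ _ (a0 t) (b0 t) (by simp [l, u]; rfl)
  · exact k _ 0 (a s).1 (b s).1 (by simp [l, u0])
  · exact k _ 0 (a s).2.2 (b s).2.2 (by
      simp only [l, ContinuousMap.coe_mk, u0, u1, Prod.fst_zero, Prod.snd_zero]; ring)

/-- **the loops which die have the winding number zero** -/
theorem end_inj (pre : (jo (pk P Q) T p₁ p₂).Pre) (gen : (jo (pk P Q) T p₁ p₂).Gen)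
    (f : Fit (pk P Q) T (T.π 0) p₁ p₂) (e : Continuous i)
    {lam : (jo (pk P Q) T p₁ p₂).κ → Y.X → ℂ} (s : (jo (pk P Q) T p₁ p₂).Sec i lam)
    (o : ∀ y, (jo (pk P Q) T p₁ p₂).On (i y) fun b => lam b y)
    (hΨ : ∀ z, i (Ψ z) = (((P.Φ z.1, Q.Φ z.2), T.π 0), T.π 0)) (g : Lt) (h : Null Ψ 0 (vec g)) :
    wd P Q g = 0 := by
  obtain ⟨D, d0, d1⟩ := h
  have c := e.comp D.continuous
  have x0 : ∀ t, i (D (0, t)) = (((P.Φ (seg (lat Complex.I g.1) t), Q.Φ (seg (lat t₂ g.2) t)), T.π 0),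
      T.π 0) := fun t => by
    rw [d0, hΨ, zero_add]
    rfl
  have x1 : ∀ s, i (D (1, s)) = (((P.Φ 0, Q.Φ 0), T.π 0), T.π 0) ∧
      i (D (s, 0)) = (((P.Φ 0, Q.Φ 0), T.π 0), T.π 0) ∧
      i (D (s, 1)) = (((P.Φ 0, Q.Φ 0), T.π 0), T.π 0) := fun s => by
    rw [(d1 s).1, (d1 s).2.1, (d1 s).2.2, hΨ]
    exact ⟨rfl, rfl, rfl⟩
  obtain ⟨H₁, a1, a2, -, a3⟩ := sq_lift P.cov ⟨fun x => (i (D x)).1.1.1, c.fst.fst.fst⟩
    (P.Φh.comp (seg (lat Complex.I g.1))) (fun t => (congrArg (·.1.1.1) (x0 t)).trans (P.q_Φh _).symm)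
    fun s => by
      simp only [ContinuousMap.comp_apply, seg_zero, P.q_Φh, ContinuousMap.coe_mk, x1 s, and_self]
  obtain ⟨H₂, b1, b2, -, b3⟩ := sq_lift Q.cov ⟨fun x => (i (D x)).1.1.2, c.fst.fst.snd⟩
    (Q.Φh.comp (seg (lat t₂ g.2))) (fun t => (congrArg (·.1.1.2) (x0 t)).trans (Q.q_Φh _).symm)
    fun s => by
      simp only [ContinuousMap.comp_apply, seg_zero, Q.q_Φh, ContinuousMap.coe_mk, x1 s, and_self]
  obtain ⟨B, e1, e2, -, e3⟩ := sq_lift T.cov ⟨fun x => (i (D x)).1.2, c.fst.snd⟩ 0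
    (fun t => congrArg (·.1.2) (x0 t)) fun s => by
      simp only [ContinuousMap.zero_apply, ContinuousMap.coe_mk, x1 s, and_self]
  obtain ⟨B', f1, f2, -, f3⟩ := sq_lift T.cov ⟨fun x => (i (D x)).2, c.snd⟩ 0
    (fun t => congrArg (·.2) (x0 t)) fun s => by
      simp only [ContinuousMap.zero_apply, ContinuousMap.coe_mk, x1 s, and_self]
  obtain ⟨U⟩ := ex_tv P H₁
  obtain ⟨V⟩ := ex_tv Q H₂
  obtain ⟨k, c1, c2⟩ := ex_cf T
  obtain ⟨ρ, hρ⟩ := sec_quot pre c (τ := fun b x => lam b (D x))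
    ⟨fun b => (s.cont b).comp D.continuous.continuousOn fun _ a => a, fun b x => s.ne b _,
      fun b b' x => s.chg b b' _⟩
    (sec_ref c1 c2 B B' 0 U V fun x => by rw [a1, b1, e1, f1]; rfl)
  have key : ∀ x z z', i (D x) = (((P.Φ z, Q.Φ z'), T.π 0), T.π 0) → H₁ x = P.Φh z →
      H₂ x = Q.Φh z' → B x = 0 → B' x = 0 →
      ρ x = ⟨_, exp_ne_zero (U.l z + V.l z')⟩ := fun x z z' k0 k1 k2 k3 k4 => by
    obtain ⟨b, hb⟩ := pre.lo₁.cov (i (D x))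
    have m1 := o (D x) b hb
    have m2 := (k0 ▸ on_ref c2 f U V ⟨x, k1⟩ ⟨x, k2⟩ :) b hb
    have m3 := (hρ b x hb).symm.trans (smul_left_injective ℂ (gen.nz₂ b _ hb) (m1.symm.trans m2))
    have m4 := s.ne b _ hb
    rw [hρ b x hb] at m4
    simp only [ContinuousMap.zero_apply, exp_zero, one_mul, k1, k2, k3, k4] at m3 m4
    exact Subtype.ext (mul_right_cancel₀ (right_ne_zero_of_mul m4) m3)
  simp only [ContinuousMap.comp_apply, seg_zero] at a3 b3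
  obtain ⟨-, -, -, w, -⟩ := sq_lift isCoveringMap_exp ρ
    (U.l.comp (seg (lat Complex.I g.1)) + V.l.comp (seg (lat t₂ g.2)))
    (fun t => key _ _ _ (x0 t) (a2 t) (b2 t) (e2 t) (f2 t)) fun s => by
      simp only [ContinuousMap.add_apply, ContinuousMap.comp_apply, seg_zero]
      exact ⟨key _ _ _ (x1 s).1 (a3 s).1 (b3 s).1 (e3 s).1 (f3 s).1,
        key _ _ _ (x1 s).2.1 (a3 s).2.1 (b3 s).2.1 (e3 s).2.1 (f3 s).2.1,
        key _ _ _ (x1 s).2.2 (a3 s).2.2 (b3 s).2.2 (e3 s).2.2 (f3 s).2.2⟩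
  exact (tv_per U V g).1 (by simpa [seg_zero, seg_one] using w)

end Vale.Agent.P300LE
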