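import Vale.Agent.P027H.Add

/-!
# P300L, block LE: an entire function with simple zeros on a rectangular lattice
-/

open scoped Real Topology
open Set Filter Metric Complex

noncomputable section

namespace Vale.Agent.P300LE

open Vale.Agent.P027H

theorem prod_diff {ι : Type} {a : ι → ℂ → ℂ} (ha : ∀ i, Differentiable ℂ (a i))
    (hb : ∀ R : ℝ, ∃ u : ι → ℝ, Summable u ∧ ∀ i, ∀ z ∈ ball (0 : ℂ) R, ‖a i z‖ ≤ u i) :
    Differentiable ℂ fun z => ∏' i, (1 + a i z) := fun z => by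
  obtain ⟨u, hu, h⟩ := hb (‖z‖ + 1)
  have := hu.hasProdLocallyUniformlyOn_one_add isOpen_ball (Eventually.of_forall h)
    fun i => (ha i).continuous.continuousOn
  refine (TendstoLocallyUniformlyOn.differentiableOn this (Eventually.of_forall fun s => ?_)
    isOpen_ball).differentiableAt (isOpen_ball.mem_nhds (by simp))
  exact (Differentiable.fun_finsetProd fun i _ => (ha i).const_add 1).differentiableOn

theorem prod_sum {ι : Type} {a : ι → ℂ → ℂ}
    (hb : ∀ R : ℝ, ∃ u : ι → ℝ, Summable u ∧ ∀ i, ∀ z ∈ ball (0 : ℂ) R, ‖a i z‖ ≤ u i) (z : ℂ) :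
    Summable fun i => ‖a i z‖ := by
  obtain ⟨u, hu, h⟩ := hb (‖z‖ + 1)
  exact hu.of_nonneg_of_le (fun _ => norm_nonneg _) fun i => h i z (by simp)

theorem prod_fac {ι : Type} {a : ι → ℂ → ℂ} (ha : ∀ i, Differentiable ℂ (a i))
    (hb : ∀ R : ℝ, ∃ u : ι → ℝ, Summable u ∧ ∀ i, ∀ z ∈ ball (0 : ℂ) R, ‖a i z‖ ≤ u i) (k : ι) :
    ∃ r : ℂ → ℂ, Differentiable ℂ r ∧ (∀ z, (∀ i ≠ k, 1 + a i z ≠ 0) → r z ≠ 0) ∧
      ∀ z, ∏' i, (1 + a i z) = (1 + a k z) * r z := by
  classical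
  let b : ι → ℂ → ℂ := fun i z => if i = k then 0 else a i z
  have hb' : ∀ R : ℝ, ∃ u : ι → ℝ, Summable u ∧ ∀ i, ∀ z ∈ ball (0 : ℂ) R, ‖b i z‖ ≤ u i :=
    fun R => (hb R).imp fun u h => ⟨h.1, fun i z hz => le_trans (by
      by_cases e : i = k <;> simp [b, e]) (h.2 i z hz)⟩
  have e : ∀ z i, 1 + b i z = if i = k then 1 else 1 + a i z := fun z i => by
    by_cases e : i = k <;> simp [b, e]
  refine ⟨_, prod_diff (a := b) (fun i => ?_) hb', fun z h =>
    tprod_one_add_ne_zero_of_summable (fun i => ?_) (prod_sum hb' z), fun z => ?_⟩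
  · by_cases e : i = k
    · simp [b, e]
    · simpa [b, e] using ha i
  · by_cases c : i = k
    · simp [e, c]
    · simpa [e, c] using h i c
  · have m := multipliable_one_add_of_summable (prod_sum hb' z)
    simp only [e] at m ⊢
    refine Multipliable.tprod_eq_mul_tprod_ite' k (m.congr fun i => ?_)
    rw [Function.update_apply]

variable {t : ℝ}

/-- the lattice `ℤ + ℤ t i` -/
def Lam (t : ℝ) : Submodule ℤ ℂ := Submodule.span ℤ {1, t * I}

theorem mem_Lam {z : ℂ} : z ∈ Lam t ↔ ∃ m n : ℤ, z = m + n * (t * I) := by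
  simp only [Lam, Submodule.mem_span_pair, zsmul_eq_mul, mul_one, eq_comm]

theorem isLat (ht : 0 < t) : IsLat (Lam t) := by
  refine ⟨⟨1, t * I, LinearIndependent.pair_iff.2 fun a b h => ?_⟩, rfl⟩
  have h1 := congrArg re h
  have h2 := congrArg im h
  simp at h1 h2
  exact ⟨h1, h2.resolve_right ht.ne'⟩

/-- the sign -/
def sg (n : ℤ) : ℝ := if 0 ≤ n then -1 else 1

/-- the factors -/
def fa (t : ℝ) (n : ℤ) (z : ℂ) : ℂ := -cexp (2 * π * I * (sg n * (z - n * (t * I))))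

theorem sg_ne (n : ℤ) : (sg n : ℂ) ≠ 0 := by
  unfold sg
  split_ifs <;> simp

theorem fa_bd (ht : 0 < t) (R : ℝ) :
    ∃ u : ℤ → ℝ, Summable u ∧ ∀ i, ∀ z ∈ ball (0 : ℂ) R, ‖fa t i z‖ ≤ u i := by
  have h := summable_geometric_of_lt_one (Real.exp_pos (-(2 * π * t))).le
    (Real.exp_lt_one_iff.2 (neg_neg_of_pos (by positivity)))
  refine ⟨fun n => Real.exp (2 * π * R) * Real.exp (-(2 * π * t)) ^ n.natAbs,
    Summable.mul_left _ (.of_nat_of_neg (by simpa using h) (by simpa using h)), fun n z hz => ?_⟩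
  have b := abs_le.1 ((abs_im_le_norm z).trans (mem_ball_zero_iff.1 hz).le)
  beta_reduce
  rw [fa, norm_neg, norm_exp, ← Real.exp_nat_mul, ← Real.exp_add, Real.exp_le_exp,
    Nat.cast_natAbs, Int.cast_abs]
  have p := Real.pi_pos
  unfold sg
  split_ifs with c
  · rw [abs_of_nonneg (Int.cast_nonneg c)]
    simp
    nlinarith
  · rw [abs_of_neg (Int.cast_lt_zero.2 (not_le.1 c))]
    simp
    nlinarith

theorem fa_zero {n : ℤ} {z : ℂ} (h : 1 + fa t n z = 0) : ∃ m : ℤ, z = m + n * (t * I) := by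
  obtain ⟨k, hk⟩ := exp_eq_one_iff.1 (add_neg_eq_zero.1 h).symm
  have e : sg n * (z - n * (t * I)) = k :=
    mul_left_cancel₀ two_pi_I_ne_zero (hk.trans (mul_comm _ _))
  unfold sg at e
  split_ifs at e
  · exact ⟨-k, by push_cast at e ⊢; linear_combination -e⟩
  · exact ⟨k, by push_cast at e ⊢; linear_combination e⟩

/-- **an entire function with simple zeros on the lattice** -/
theorem ex_sig (ht : 0 < t) : ∃ s : ℂ → ℂ, Differentiable ℂ s ∧ (∀ z ∉ Lam t, s z ≠ 0) ∧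
    ∀ l ∈ Lam t, s l = 0 ∧ deriv s l ≠ 0 := by
  have d : ∀ n, Differentiable ℂ (fa t n) := fun n => by
    unfold fa
    fun_prop
  refine ⟨_, prod_diff d (fa_bd ht), fun z hz => tprod_one_add_ne_zero_of_summable
    (fun n e => hz ?_) (prod_sum (fa_bd ht) z), fun l hl => ?_⟩
  · obtain ⟨m, e⟩ := fa_zero e
    exact mem_Lam.2 ⟨m, n, e⟩
  · obtain ⟨m, n, e⟩ := mem_Lam.1 hl
    obtain ⟨r, r1, r2, r3⟩ := prod_fac d (fa_bd ht) n
    have a : fa t n l = -1 := by
      rw [fa, e, add_sub_cancel_right, neg_inj, exp_eq_one_iff]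
      unfold sg
      split_ifs
      · exact ⟨-m, by push_cast; ring⟩
      · exact ⟨m, by push_cast; ring⟩
    have b : HasDerivAt (fa t n) (fa t n l * (2 * π * I * sg n)) l := by
      have := ((((hasDerivAt_id l).sub_const (n * (t * I))).const_mul (sg n : ℂ)).const_mul
        (2 * π * I)).cexp.neg
      exact this.congr_deriv (by rw [fa, id, mul_one, neg_mul])
    refine ⟨by rw [r3, a, add_neg_cancel, zero_mul], ?_⟩
    rw [funext r3, ((b.const_add 1).fun_mul (r1 l).hasDerivAt).deriv, a, add_neg_cancel, zero_mul,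
      add_zero]
    refine mul_ne_zero (mul_ne_zero (by simp) (mul_ne_zero two_pi_I_ne_zero (sg_ne n)))
      (r2 l fun i hi c => hi ?_)
    obtain ⟨k, hk⟩ := fa_zero c
    have := congrArg im (hk.symm.trans e)
    simpa [ht.ne'] using this

end Vale.Agent.P300LE
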