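import Vale.Agent.P300LE.Sig

/-!
# P300L, block LE: the Weierstrass function of a rectangular lattice
-/

open scoped Real Topology ComplexConjugate
open Set Filter Metric Complex

noncomputable section

namespace Vale.Agent.P300LE

open Vale.Agent.P027H

variable {t : ℝ} {Λ : Submodule ℤ ℂ}

theorem near_zero (h : IsLat Λ) : ∃ g k : ℂ → ℂ, AnalyticAt ℂ g 0 ∧ AnalyticAt ℂ k 0 ∧ g 0 = 1 ∧
    ∀ z ∉ Λ, z ^ 2 * wp Λ z = g z ∧ z ^ 3 * dwp Λ z = k z := by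
  obtain ⟨L, rfl⟩ := h
  have a := P014G.pa_analytic L
  exact ⟨P014G.pa L, fun z => z * deriv (P014G.pa L) z - 2 * P014G.pa L z, a,
    (analyticAt_id.mul a.deriv).sub (analyticAt_const.mul a), P014G.pa_zero L, fun z hz =>
      ⟨(P014G.pa_eq L fun e : z = 0 => hz (e ▸ zero_mem _)).symm, (P014G.pa_deriv L hz).symm⟩⟩

/-- entire homogeneous coordinates -/
theorem ex_st (ht : 0 < t) : ∃ X Y W : ℂ → ℂ, Differentiable ℂ X ∧ Differentiable ℂ Y ∧
    Differentiable ℂ W ∧ (∀ z ∈ Lam t, X z ≠ 0 ∧ Y z = 0 ∧ W z = 0) ∧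
    ∀ z ∉ Lam t, Y z ≠ 0 ∧ X z = Y z * wp (Lam t) z ∧ W z = Y z ^ 2 * dwp (Lam t) z := by
  classical
  have h := isLat ht
  obtain ⟨s, s1, s2, s3⟩ := ex_sig ht
  obtain ⟨g, k, g1, k1, g0, gk⟩ := near_zero h
  have loc : ∀ l ∈ Lam t, ∃ u : ℂ → ℂ, DifferentiableAt ℂ u l ∧ u l = deriv s l ∧
      (∀ z, s z = (z - l) * u z) ∧ ∀ᶠ z in 𝓝 l, z ≠ l → z - l ∉ Lam t := fun l hl => by
    refine ⟨dslope s l, ((differentiableOn_dslope univ_mem).2 s1.differentiableOn).differentiableAt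
      univ_mem, dslope_same _ _, fun z => ?_, ?_⟩
    · rw [← smul_eq_mul, sub_smul_dslope, (s3 l hl).1, sub_zero]
    · have c : Tendsto (fun z : ℂ => z - l) (𝓝 l) (𝓝 0) := by
        simpa using (continuous_sub_right l).tendsto l
      exact (c.eventually (eventually_nhdsWithin_iff.1 h.notMem_zero)).mono
        fun z a b => a (sub_ne_zero.2 b)
  have sh : ∀ {f : ℂ → ℂ} (l : ℂ), AnalyticAt ℂ f 0 → DifferentiableAt ℂ (fun z => f (z - l)) l :=
    fun {f} l a => DifferentiableAt.comp (g := f) l (by simpa using a.differentiableAt) (by fun_prop)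
  refine ⟨fun z => if z ∈ Lam t then deriv s z ^ 2 else s z ^ 2 * wp (Lam t) z, fun z => s z ^ 2,
    fun z => (s z ^ 2) ^ 2 * dwp (Lam t) z, fun l => ?_, s1.fun_pow 2, fun l => ?_,
    fun z hz => ⟨?_, ?_, ?_⟩, fun z hz => ⟨pow_ne_zero _ (s2 z hz), if_neg hz, rfl⟩⟩
  · by_cases hl : l ∈ Lam t
    · obtain ⟨u, u1, u2, u3, u4⟩ := loc l hl
      refine ((u1.fun_pow 2).fun_mul (sh l g1)).congr_of_eventuallyEq (u4.mono fun z a => ?_)
      by_cases e : z = l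
      · simp [e, hl, u2, g0]
      · have b : z ∉ Lam t := fun c => a e (sub_mem c hl)
        simp only [if_neg b]
        rw [← (gk _ (a e)).1, u3, h.wp_congr (z := z - l) (w := z) (by simpa using hl)]
        ring
    · refine (((s1 l).fun_pow 2).fun_mul (h.analyticAt_wp hl).differentiableAt).congr_of_eventuallyEq
        ((h.notMem_nhds hl).mono fun z a => if_neg a)
  · by_cases hl : l ∈ Lam t
    · obtain ⟨u, u1, u2, u3, u4⟩ := loc l hl
      refine (((u1.fun_pow 4).fun_mul (differentiableAt_id.sub_const l)).fun_mul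
        (sh l k1)).congr_of_eventuallyEq (u4.mono fun z a => ?_)
      by_cases e : z = l
      · simp [e, (s3 l hl).1]
      · simp only [id]
        rw [← (gk _ (a e)).2, u3, h.dwp_congr (z := z - l) (w := z) (by simpa using hl)]
        ring
    · exact (((s1 l).fun_pow 2).fun_pow 2).fun_mul (h.analyticAt_dwp hl).differentiableAt
  · simpa [hz] using (s3 z hz).2
  · simp [(s3 z hz).1]
  · simp [(s3 z hz).1]

/-- real coordinates -/
def pt (t x y : ℝ) : ℂ := x + y * (t * I)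

theorem pt_mem (ht : 0 < t) {x y : ℝ} : pt t x y ∈ Lam t ↔ (∃ m : ℤ, x = m) ∧ ∃ n : ℤ, y = n := by
  rw [mem_Lam]
  refine ⟨fun ⟨m, n, e⟩ => ⟨⟨m, by simpa [pt] using congrArg re e⟩,
    n, by simpa [pt, ht.ne'] using congrArg im e⟩, ?_⟩
  rintro ⟨⟨m, rfl⟩, n, rfl⟩
  exact ⟨m, n, by simp [pt]⟩

theorem pt_add (x y x' y' : ℝ) : pt t x y + pt t x' y' = pt t (x + x') (y + y') := by
  simp only [pt]; push_cast; ring

theorem pt_sub (x y x' y' : ℝ) : pt t x y - pt t x' y' = pt t (x - x') (y - y') := by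
  simp only [pt]; push_cast; ring

theorem pt_two (x y : ℝ) : 2 * pt t x y = pt t (2 * x) (2 * y) := by
  simp only [pt]; push_cast; ring

theorem pt_conj (x y : ℝ) : conj (pt t x y) = pt t x (-y) := by simp [pt]

theorem not_int {x : ℝ} (h0 : 0 < x) (h1 : x < 1) : ¬∃ m : ℤ, x = m := by
  rintro ⟨m, rfl⟩
  have a : 0 < m := by exact_mod_cast h0
  have b : m < 1 := by exact_mod_cast h1
  omega

theorem not_half : ¬∃ m : ℤ, (1 / 2 : ℝ) = m := not_int (by norm_num) (by norm_num)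

theorem cj_Lam : cjL (Lam t) = Lam t := by
  ext z
  rw [mem_cjL, mem_Lam, mem_Lam]
  refine ⟨fun ⟨m, n, e⟩ => ⟨m, -n, ?_⟩, fun ⟨m, n, e⟩ => ⟨m, -n, by simp [e]⟩⟩
  simpa using congrArg conj e

theorem wp_conj (z : ℂ) : wp (Lam t) (conj z) = conj (wp (Lam t) z) := by
  rw [← wp_cj, cj_Lam]

/-- the values at the half periods -/
def e1 (t : ℝ) : ℂ := wp (Lam t) (pt t (1 / 2) 0)

/-- the values at the half periods -/
def e2 (t : ℝ) : ℂ := wp (Lam t) (pt t (1 / 2) (1 / 2))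

/-- the values at the half periods -/
def e3 (t : ℝ) : ℂ := wp (Lam t) (pt t 0 (1 / 2))

theorem wp_ne' (ht : 0 < t) {x y x' y' : ℝ} (h : ¬((∃ m : ℤ, x = m) ∧ ∃ n : ℤ, y = n))
    (h' : ¬((∃ m : ℤ, x' = m) ∧ ∃ n : ℤ, y' = n))
    (h1 : ¬((∃ m : ℤ, x - x' = m) ∧ ∃ n : ℤ, y - y' = n))
    (h2 : ¬((∃ m : ℤ, x + x' = m) ∧ ∃ n : ℤ, y + y' = n)) :
    wp (Lam t) (pt t x y) ≠ wp (Lam t) (pt t x' y') :=
  (isLat ht).wp_ne ((pt_mem ht).not.2 h) ((pt_mem ht).not.2 h')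
    (by rw [pt_sub]; exact (pt_mem ht).not.2 h1) (by rw [pt_add]; exact (pt_mem ht).not.2 h2)

theorem e12 (ht : 0 < t) : e2 t ≠ e1 t := wp_ne' ht (fun h => not_half h.1) (fun h => not_half h.1)
  (fun h => not_half (by simpa using h.2)) fun h => not_half (by simpa using h.2)

theorem e13 (ht : 0 < t) : e1 t ≠ e3 t := wp_ne' ht (fun h => not_half h.1) (fun h => not_half h.2)
  (fun h => not_half (by simpa using h.1)) fun h => not_half (by simpa using h.1)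

theorem e23 (ht : 0 < t) : e2 t ≠ e3 t := wp_ne' ht (fun h => not_half h.1) (fun h => not_half h.2)
  (fun h => not_half (by simpa using h.1)) fun h => not_half (by simpa using h.1)

theorem dwp_half (ht : 0 < t) {x y : ℝ} (h : ¬((∃ m : ℤ, x = m) ∧ ∃ n : ℤ, y = n)) :
    dwp (Lam t) (pt t x y) = 0 ↔ (∃ m : ℤ, 2 * x = m) ∧ ∃ n : ℤ, 2 * y = n := by
  rw [(isLat ht).dwp_eq_zero ((pt_mem ht).not.2 h), pt_two, pt_mem ht]

theorem cubic (ht : 0 < t) : e1 t + e2 t + e3 t = 0 ∧ ∀ x : ℂ,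
    4 * x ^ 3 - g2 (Lam t) * x - g3 (Lam t) = 4 * ((x - e1 t) * (x - e2 t) * (x - e3 t)) := by
  have k : ∀ {x y : ℝ}, ¬((∃ m : ℤ, x = m) ∧ ∃ n : ℤ, y = n) →
      ((∃ m : ℤ, 2 * x = m) ∧ ∃ n : ℤ, 2 * y = n) → 4 * wp (Lam t) (pt t x y) ^ 3 -
        g2 (Lam t) * wp (Lam t) (pt t x y) - g3 (Lam t) = 0 := fun a b => by
    rw [← (isLat ht).ode ((pt_mem ht).not.2 a), (dwp_half ht a).2 b, zero_pow two_ne_zero]
  have a : 4 * e1 t ^ 3 - g2 (Lam t) * e1 t - g3 (Lam t) = 0 :=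
    k (fun h => not_half h.1) ⟨⟨1, by simp⟩, 0, by simp⟩
  have b : 4 * e2 t ^ 3 - g2 (Lam t) * e2 t - g3 (Lam t) = 0 :=
    k (fun h => not_half h.1) ⟨⟨1, by simp⟩, 1, by simp⟩
  have c : 4 * e3 t ^ 3 - g2 (Lam t) * e3 t - g3 (Lam t) = 0 :=
    k (fun h => not_half h.2) ⟨⟨0, by simp⟩, 1, by simp⟩
  have f1 : g2 (Lam t) = 4 * (e1 t ^ 2 + e1 t * e3 t + e3 t ^ 2) :=
    mul_left_cancel₀ (sub_ne_zero.2 (e13 ht)) (by linear_combination c - a)
  have f2 : g2 (Lam t) = 4 * (e2 t ^ 2 + e2 t * e3 t + e3 t ^ 2) :=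
    mul_left_cancel₀ (sub_ne_zero.2 (e23 ht)) (by linear_combination c - b)
  have f3 : e1 t + e2 t + e3 t = 0 :=
    mul_left_cancel₀ (sub_ne_zero.2 (e12 ht)) (by linear_combination (f1 - f2) / 4)
  refine ⟨f3, fun x => ?_⟩
  have f4 : e2 t = -e1 t - e3 t := by linear_combination f3
  have f5 : g3 (Lam t) = 4 * e1 t ^ 3 - g2 (Lam t) * e1 t := by linear_combination -a
  rw [f5, f1, f4]
  ring

/-- the real parameter along a side of the rectangle -/
theorem side (ht : 0 < t) {γ : ℝ → ℂ} (hc : Continuous γ) (h0 : ∀ s, γ s ∉ Lam t)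
    (hr : ∀ s, conj (γ s) - γ s ∈ Lam t ∨ conj (γ s) + γ s ∈ Lam t)
    (hi : ∀ s ∈ Icc (0 : ℝ) 1, ∀ s' ∈ Icc (0 : ℝ) 1, s ≠ s' →
      wp (Lam t) (γ s) ≠ wp (Lam t) (γ s')) (hs : ∀ s, γ (2 - s) + γ s ∈ Lam t) :
    ∃ x : ℝ → ℝ, Continuous x ∧ StrictMonoOn x (Icc 0 1) ∧ x 0 = 0 ∧ x 1 = 1 ∧
      (∀ s, x (2 - s) = x s) ∧
      ∀ s, wp (Lam t) (γ s) = (1 - x s) * wp (Lam t) (γ 0) + x s * wp (Lam t) (γ 1) := by
  have h := isLat ht
  obtain ⟨f, hf⟩ : ∃ f : ℝ → ℝ, ∀ s, wp (Lam t) (γ s) = f s :=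
    ⟨fun s => (wp (Lam t) (γ s)).re, fun s => (conj_eq_iff_re.1 (by
      rw [← wp_conj]
      exact (hr s).elim h.wp_congr h.wp_congr')).symm⟩
  have c : Continuous f := by
    have : Continuous fun s => (wp (Lam t) (γ s)).re := continuous_re.comp
      (continuous_iff_continuousAt.2 fun s => ContinuousAt.comp (f := γ)
        (h.analyticAt_wp (h0 s)).continuousAt hc.continuousAt)
    simpa only [hf, ofReal_re] using this
  have i : InjOn f (Icc 0 1) := fun s a s' b e => by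
    by_contra n
    exact hi s a s' b n (by rw [hf, hf, e])
  have m0 : (0 : ℝ) ∈ Icc (0 : ℝ) 1 := left_mem_Icc.2 zero_le_one
  have m1 : (1 : ℝ) ∈ Icc (0 : ℝ) 1 := right_mem_Icc.2 zero_le_one
  have n : f 1 - f 0 ≠ 0 := fun e => one_ne_zero (i m1 m0 (sub_eq_zero.1 e))
  refine ⟨fun s => (f s - f 0) / (f 1 - f 0), by fun_prop, fun a ha b hb l => ?_, by simp,
    div_self n, fun s => ?_, fun s => ?_⟩
  · rcases c.continuousOn.strictMonoOn_of_injOn_Icc' zero_le_one i with k | k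
    · exact div_lt_div_of_pos_right (by linarith [k ha hb l]) (sub_pos.2 (k m0 m1 one_pos))
    · exact (div_lt_div_right_of_neg (sub_neg.2 (k m0 m1 one_pos))).2 (by linarith [k ha hb l])
  · have := h.wp_congr' (hs s)
    rw [hf, hf, ofReal_inj] at this
    simp only [this]
  · have : ((f 1 : ℂ) - f 0) ≠ 0 := by exact_mod_cast n
    simp only [hf]
    push_cast
    field_simp
    ring

theorem int_half {s s' : ℝ} (a : s ∈ Icc (0 : ℝ) 1) (b : s' ∈ Icc (0 : ℝ) 1) (n : s ≠ s') :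
    (¬∃ m : ℤ, s / 2 - s' / 2 = m) ∧ ¬∃ m : ℤ, s / 2 + s' / 2 = m := by
  refine ⟨fun ⟨m, e⟩ => ?_, not_int ?_ ?_⟩
  · have c : (-1 : ℝ) < m := by linarith [a.1, b.2]
    have d : (m : ℝ) < 1 := by linarith [a.2, b.1]
    have c' : -1 < m := by exact_mod_cast c
    have d' : m < 1 := by exact_mod_cast d
    obtain rfl : m = 0 := by omega
    exact n (by simp at e; linarith)
  · rcases n.lt_or_gt with c | c <;> linarith [a.1, b.1]
  · rcases n.lt_or_gt with c | c <;> linarith [a.2, b.2]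

theorem sideA (ht : 0 < t) : ∃ x : ℝ → ℝ, Continuous x ∧ StrictMonoOn x (Icc 0 1) ∧ x 0 = 0 ∧
    x 1 = 1 ∧ (∀ s, x (2 - s) = x s) ∧
      ∀ s, wp (Lam t) (pt t (s / 2) (1 / 2)) = (1 - x s) * e3 t + x s * e2 t := by
  have := side ht (γ := fun s => pt t (s / 2) (1 / 2)) (by unfold pt; fun_prop)
    (fun s h => not_half ((pt_mem ht).1 h).2)
    (fun s => .inl (by rw [pt_conj, pt_sub, pt_mem ht]; exact ⟨⟨0, by simp⟩, -1, by norm_num⟩))
    (fun s a s' b n => wp_ne' ht (fun h => not_half h.2) (fun h => not_half h.2)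
      (fun h => (int_half a b n).1 h.1) fun h => (int_half a b n).2 h.1)
    fun s => by rw [pt_add, pt_mem ht]; exact ⟨⟨1, by push_cast; ring⟩, 1, by norm_num⟩
  simpa only [zero_div, e2, e3] using this

theorem sideB (ht : 0 < t) : ∃ x : ℝ → ℝ, Continuous x ∧ StrictMonoOn x (Icc 0 1) ∧ x 0 = 0 ∧
    x 1 = 1 ∧ (∀ s, x (2 - s) = x s) ∧
      ∀ s, wp (Lam t) (pt t (1 / 2) (1 / 2 + s / 2)) = (1 - x s) * e2 t + x s * e1 t := by
  have := side ht (γ := fun s => pt t (1 / 2) (1 / 2 + s / 2)) (by unfold pt; fun_prop)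
    (fun s h => not_half ((pt_mem ht).1 h).1)
    (fun s => .inr (by rw [pt_conj, pt_add, pt_mem ht]; exact ⟨⟨1, by norm_num⟩, 0, by simp⟩))
    (fun s a s' b n => wp_ne' ht (fun h => not_half h.1) (fun h => not_half h.1)
      (fun h => (int_half a b n).1 (h.2.imp fun m e => by linarith))
      fun h => (int_half a b n).2 (let ⟨m, e⟩ := h.2; ⟨m - 1, by push_cast; linarith⟩))
    fun s => by rw [pt_add, pt_mem ht]; exact ⟨⟨1, by norm_num⟩, 2, by push_cast; ring⟩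
  have e : wp (Lam t) (pt t (1 / 2) (1 / 2 + 1 / 2)) = e1 t := (isLat ht).wp_congr (by
    rw [pt_sub, pt_mem ht]; exact ⟨⟨0, by simp⟩, 1, by norm_num⟩)
  simpa only [zero_div, add_zero, e, e2] using this

theorem lam_one : e2 1 - e3 1 = (1 / 2 : ℝ) * (e1 1 - e3 1) := by
  have h : Hom I (Lam 1) (Lam 1) := ⟨I_ne_zero, fun z => by
    simp only [mem_Lam, ofReal_one, one_mul]
    refine ⟨fun ⟨m, n, e⟩ => ⟨-n, m, ?_⟩, fun ⟨m, n, e⟩ => ⟨n, -m, ?_⟩⟩
    · push_cast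
      linear_combination I * e + n * I_mul_I
    · push_cast
      linear_combination -I * e + (z - n) * I_mul_I⟩
  have a := h.wp (pt 1 (1 / 2) 0)
  rw [show I * pt 1 (1 / 2) 0 = pt 1 0 (1 / 2) by simp [pt, mul_comm], inv_pow, I_sq] at a
  change e3 1 = _ * e1 1 at a
  push_cast
  linear_combination (cubic one_pos).1 - 3 / 2 * a

theorem lam_two : e2 √2 - e3 √2 = (3 - 2 * √2 : ℝ) * (e1 √2 - e3 √2) := by
  have ht : 0 < √2 := by positivity
  have h := isLat ht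
  have q : ((√2 : ℝ) : ℂ) ^ 2 = 2 := by exact_mod_cast Real.sq_sqrt zero_le_two
  obtain ⟨θ, hθ⟩ : ∃ θ : ℂ, θ = (√2 : ℝ) * I := ⟨_, rfl⟩
  have θ2 : θ ^ 2 = -2 := by rw [hθ, mul_pow, q, I_sq]; ring
  have mm : ∀ z, z ∈ Lam (√2 / 2) ↔ ∃ m n : ℤ, z = m + n * (θ / 2) := fun z => by
    simp only [mem_Lam, hθ, ofReal_div, ofReal_ofNat, div_mul_eq_mul_div]
  have ml : ∀ z, z ∈ Lam √2 ↔ ∃ m n : ℤ, z = m + n * θ := fun z => by rw [mem_Lam, hθ]
  have θ0 : θ ≠ 0 := fun e => by simp [e] at θ2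
  have H : Hom θ (Lam (√2 / 2)) (Lam √2) := ⟨θ0, fun z => by
    rw [mm, ml]
    refine ⟨fun ⟨m, n, e⟩ => ⟨-n, m, ?_⟩, fun ⟨m, n, e⟩ => ⟨n, -m, ?_⟩⟩
    · push_cast
      linear_combination θ * e + n / 2 * θ2
    · push_cast
      linear_combination -θ / 2 * e + (z - n) / 2 * θ2⟩
  have p : ∀ y : ℝ, pt √2 0 y = y * θ := fun y => by simp [pt, hθ]
  have R : Reps (fun i : Bool => pt √2 0 (if i then 1 / 2 else 0)) (Lam √2) (Lam (√2 / 2)) := by
    refine ⟨fun z hz => ?_, fun i => ?_, fun z hz => ?_, fun i k e => ?_⟩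
    · obtain ⟨m, n, e⟩ := (ml z).1 hz
      exact (mm z).2 ⟨m, 2 * n, by push_cast; linear_combination e⟩
    · exact (mm _).2 ⟨0, if i then 1 else 0, by cases i <;> simp [p]; ring⟩
    · obtain ⟨m, n, e⟩ := (mm z).1 hz
      rcases Int.even_or_odd' n with ⟨k, c | c⟩
      · exact ⟨false, (ml _).2 ⟨m, k, by simp [p, e, c]; ring⟩⟩
      · exact ⟨true, (ml _).2 ⟨m, k, by simp [p, e, c]; ring⟩⟩
    · rw [pt_sub, pt_mem ht] at e
      obtain ⟨n, e⟩ := e.2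
      cases i <;> cases k
      · rfl
      · exact (not_half ⟨-n, by simp at e; push_cast; linarith⟩).elim
      · exact (not_half ⟨n, by simpa using e⟩).elim
      · rfl
  have n4 : ¬∃ m : ℤ, (1 / 4 : ℝ) = m := not_int (by norm_num) (by norm_num)
  obtain ⟨x, hx⟩ : ∃ x, x = wp (Lam √2) (pt √2 0 (1 / 4)) := ⟨_, rfl⟩
  have ng : pt √2 0 (1 / 4) - pt √2 0 (1 / 2) = -pt √2 0 (1 / 4) := by
    simp only [p]; push_cast; ring
  have a := H.wp (pt √2 0 (1 / 4))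
  rw [R.wp h (isLat (half_pos ht)), Fintype.sum_bool, if_pos rfl, if_neg Bool.false_ne_true, ng,
    h.wp_neg, show pt √2 0 0 = 0 by simp [pt], sub_zero, h.wp_mem (zero_mem _), ← hx, inv_pow, θ2,
    show θ * pt √2 0 (1 / 4) = -pt √2 (1 / 2) 0 by
      rw [p]; simp only [pt]; push_cast; linear_combination θ2 / 4, h.wp_neg] at a
  change e1 √2 = _ * (x - e3 √2 + _) at a
  have z4 : pt √2 0 (1 / 4) ∉ Lam √2 := fun c => n4 ((pt_mem ht).1 c).2
  have ne : x ≠ e3 √2 := hx ▸ wp_ne' ht (fun c => n4 c.2) (fun c => not_half c.2)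
    (fun c => n4 (let ⟨m, e⟩ := c.2; ⟨-m, by push_cast; linarith⟩))
    fun c => not_int (by norm_num) (by norm_num) c.2
  have b := (h.add (z := -pt √2 0 (1 / 4)) (w := pt √2 0 (1 / 2)) (by simpa using z4)
    (fun c => not_half ((pt_mem ht).1 c).2) (by rw [h.wp_neg, ← hx]; exact ne)).2.1
  have o := h.ode z4
  rw [← hx, (cubic ht).2] at o
  rw [← ng, sub_add_cancel, ng, h.wp_neg, h.dwp_neg, ← hx,
    (dwp_half ht fun c => not_half c.2).2 ⟨⟨0, by simp⟩, 1, by simp⟩, aX, sl, sub_zero, div_pow,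
    neg_sq, o] at b
  change x = _ / (x - e3 √2) ^ 2 / 4 - x - e3 √2 at b
  have ne' := sub_ne_zero.2 ne
  have c : (2 * x + e3 √2) * (x - e3 √2) = (x - e1 √2) * (x - e2 √2) := by
    field_simp at b
    linear_combination b
  have s := (cubic ht).1
  have d : (e2 √2 - e3 √2 - (3 - 2 * √2 : ℝ) * (e1 √2 - e3 √2)) *
      (e2 √2 - e3 √2 - (3 + 2 * √2 : ℝ) * (e1 √2 - e3 √2)) = 0 := by
    have x1 : x = (e3 √2 - 2 * e1 √2) / 2 := by linear_combination a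
    have x2 : e2 √2 = -e1 √2 - e3 √2 := by linear_combination s
    rw [x1, x2] at c
    rw [x2]
    push_cast
    linear_combination 4 * c - 4 * (e1 √2 - e3 √2) ^ 2 * q
  refine sub_eq_zero.1 ((mul_eq_zero.1 d).resolve_right fun e => ?_)
  obtain ⟨y, y1, -, y2, y3, -, y4⟩ := sideA ht
  have l0 : (0 : ℝ) < 3 + 2 * √2 := by positivity
  obtain ⟨u, -, hu⟩ := intermediate_value_Icc zero_le_one y1.continuousOn
    (show (3 + 2 * √2)⁻¹ ∈ Icc (y 0) (y 1) by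
      rw [y2, y3]
      exact ⟨(inv_pos.2 l0).le, inv_le_one_of_one_le₀ (by linarith)⟩)
  refine wp_ne' ht (x := u / 2) (y := 1 / 2) (x' := 1 / 2) (y' := 0) (fun c => not_half c.2)
    (fun c => not_half c.1) (fun c => not_half (by simpa using c.2))
    (fun c => not_half (by simpa using c.2)) ?_
  have l1 : ((3 + 2 * √2 : ℝ) : ℂ)⁻¹ * (3 + 2 * √2 : ℝ) = 1 :=
    inv_mul_cancel₀ (ofReal_ne_zero.2 l0.ne')
  rw [y4, hu, ofReal_inv]
  change _ = e1 √2
  linear_combination ((3 + 2 * √2 : ℝ) : ℂ)⁻¹ * e + (e1 √2 - e3 √2) * l1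

end Vale.Agent.P300LE
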